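import Mathlib

/-!
P338: the encoding of the size of the multiplications by the shape of the matrix, and the final
asymptotic argument.
-/

namespace Vale.Agent.P338.R2.H784

/-- The integer encoded by the shape `n1 × n2`. -/
def mu (n1 n2 : ℕ) : ℕ := 2 ^ Nat.log 2 n1 * n2 + (n1 - 2 ^ Nat.log 2 n1)

theorem two_pow_log_le {n : ℕ} (h : 1 ≤ n) : 2 ^ Nat.log 2 n ≤ n :=
  Nat.pow_log_le_self 2 (by omega)

theorem lt_two_mul_pow_log {n : ℕ} : n < 2 * 2 ^ Nat.log 2 n := by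
  have := Nat.lt_pow_succ_log_self (b := 2) (by norm_num) n
  rwa [pow_succ, mul_comm] at this

theorem mul_le_two_mu {n1 n2 : ℕ} : n1 * n2 ≤ 2 * mu n1 n2 := by
  unfold mu
  have h := lt_two_mul_pow_log (n := n1)
  have : n1 * n2 ≤ 2 * 2 ^ Nat.log 2 n1 * n2 := Nat.mul_le_mul_right _ h.le
  nlinarith

theorem mu_le_two_mul {n1 n2 : ℕ} (h1 : 1 ≤ n1) (h2 : 1 ≤ n2) : mu n1 n2 ≤ 2 * (n1 * n2) := by
  unfold mu
  have h := two_pow_log_le h1
  have h' := lt_two_mul_pow_log (n := n1)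
  have h3 : 2 ^ Nat.log 2 n1 * n2 ≤ n1 * n2 := Nat.mul_le_mul_right _ h
  have h4 : n1 - 2 ^ Nat.log 2 n1 ≤ n1 * n2 := by
    have : n1 ≤ n1 * n2 := Nat.le_mul_of_pos_right _ h2
    omega
  omega

/-- Every positive integer is encoded by a nearly square shape. -/
theorem exists_shape (m : ℕ) (hm : 1 ≤ m) :
    ∃ n1 n2 : ℕ, mu n1 n2 = m ∧ 1 ≤ n1 ∧ 1 ≤ n2 ∧ n1 ≤ 4 * n2 ∧ n2 ≤ 4 * n1 ∧
      m ≤ 4 * n1 ^ 2 ∧ m ≤ 4 * n2 ^ 2 := by
  set s := Nat.log 2 m / 2 with hs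
  have h1 : 2 ^ Nat.log 2 m ≤ m := two_pow_log_le hm
  have h2 : m < 2 * 2 ^ Nat.log 2 m := lt_two_mul_pow_log
  have h3 : 2 ^ s * 2 ^ s ≤ 2 ^ Nat.log 2 m := by
    rw [← pow_add]
    exact Nat.pow_le_pow_right (by norm_num) (by omega)
  have h4 : 2 ^ Nat.log 2 m ≤ 2 * (2 ^ s * 2 ^ s) := by
    rw [← pow_add, ← pow_succ']
    exact Nat.pow_le_pow_right (by norm_num) (by omega)
  have hp : 0 < 2 ^ s := by positivity
  set p := 2 ^ s with hpdef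
  have hdm := Nat.div_add_mod m p
  have hml := Nat.mod_lt m hp
  have h5 : p ≤ m / p := by
    rw [Nat.le_div_iff_mul_le hp]
    omega
  have h6 : m / p < 4 * p := by
    rw [Nat.div_lt_iff_lt_mul hp]
    nlinarith
  have hlog : Nat.log 2 (p + m % p) = s := by
    rw [Nat.log_eq_iff (Or.inr ⟨by norm_num, by omega⟩)]
    constructor
    · omega
    · rw [pow_succ]
      omega
  refine ⟨p + m % p, m / p, ?_, by omega, by omega, by omega, by omega, ?_, ?_⟩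
  · unfold mu
    rw [hlog, ← hpdef]
    have : p + m % p - p = m % p := by omega
    rw [this]
    exact hdm
  · have h7 : p ^ 2 ≤ (p + m % p) ^ 2 := Nat.pow_le_pow_left (by omega) 2
    nlinarith
  · have h7 : p ^ 2 ≤ (m / p) ^ 2 := Nat.pow_le_pow_left h5 2
    nlinarith

/-- Nearly square shapes. -/
def Near (n1 n2 : ℕ) : Prop := n1 ≤ 4 * n2 ∧ n2 ≤ 4 * n1

/-- The matrix is padded to `2 ^ ex × 2 ^ ex`. -/
def ex (n1 n2 : ℕ) : ℕ := Nat.clog 2 (max n1 n2)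

theorem le_two_pow_ex_left (n1 n2 : ℕ) : n1 ≤ 2 ^ ex n1 n2 :=
  (le_max_left _ _).trans (Nat.le_pow_clog (by norm_num) _)

theorem le_two_pow_ex_right (n1 n2 : ℕ) : n2 ≤ 2 ^ ex n1 n2 :=
  (le_max_right _ _).trans (Nat.le_pow_clog (by norm_num) _)

theorem two_pow_ex_le {n1 n2 : ℕ} (h1 : 1 ≤ n1) : 2 ^ ex n1 n2 ≤ 2 * max n1 n2 := by
  unfold ex
  rcases Nat.lt_or_ge 1 (max n1 n2) with h | h
  · have h2 := Nat.pow_pred_clog_lt_self (b := 2) (by norm_num) h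
    have h3 : 0 < Nat.clog 2 (max n1 n2) := Nat.clog_pos (by norm_num) h
    obtain ⟨k, hk⟩ : ∃ k, Nat.clog 2 (max n1 n2) = k + 1 := ⟨Nat.clog 2 (max n1 n2) - 1, by omega⟩
    rw [hk] at h2 ⊢
    simp only [Nat.pred_eq_sub_one, Nat.add_sub_cancel] at h2
    rw [pow_succ]
    omega
  · have h4 : max n1 n2 = 1 := by omega
    rw [h4]
    simp

theorem four_pow_ex_le {n1 n2 : ℕ} (h1 : 1 ≤ n1) (h : Near n1 n2) :
    4 ^ ex n1 n2 ≤ 16 * (n1 * n2) := by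
  have h2 := two_pow_ex_le (n2 := n2) h1
  have h3 : (4 : ℕ) ^ ex n1 n2 = 2 ^ ex n1 n2 * 2 ^ ex n1 n2 := by
    rw [← mul_pow]
    norm_num
  have h4 : 2 ^ ex n1 n2 * 2 ^ ex n1 n2 ≤ (2 * max n1 n2) * (2 * max n1 n2) :=
    Nat.mul_le_mul h2 h2
  have h5 : max n1 n2 * max n1 n2 ≤ 4 * (n1 * n2) := by
    obtain ⟨ha, hb⟩ := h
    rcases le_total n1 n2 with h6 | h6
    · rw [max_eq_right h6]
      nlinarith
    · rw [max_eq_left h6]
      nlinarith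
  rw [h3]
  nlinarith

theorem mul_le_four_pow_ex (n1 n2 : ℕ) : n1 * n2 ≤ 4 ^ ex n1 n2 := by
  have h3 : (4 : ℕ) ^ ex n1 n2 = 2 ^ ex n1 n2 * 2 ^ ex n1 n2 := by
    rw [← mul_pow]
    norm_num
  rw [h3]
  exact Nat.mul_le_mul (le_two_pow_ex_left _ _) (le_two_pow_ex_right _ _)

theorem eventually_log (C a : ℝ) (hC : 0 < C) (ha : 0 < a) :
    ∃ l0 : ℕ, ∀ l : ℕ, l0 ≤ l → C * ((Nat.log 2 (l + 1) : ℝ) + 1) ≤ a * l := by
  have h2 : 0 < Real.log 2 := Real.log_pos (by norm_num)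
  have h := Real.isLittleO_log_id_atTop.bound (c := a * Real.log 2 / (4 * C)) (by positivity)
  rw [Filter.eventually_atTop] at h
  obtain ⟨x0, hx0⟩ := h
  obtain ⟨l1, hl1⟩ := exists_nat_ge (max x0 (4 * C / a + 2))
  refine ⟨l1, fun l hl => ?_⟩
  have hl' : (l1 : ℝ) ≤ l := by exact_mod_cast hl
  have h3 : x0 ≤ (l : ℝ) + 1 := by
    have := le_max_left x0 (4 * C / a + 2)
    linarith
  have h4 : 4 * C / a + 2 ≤ (l : ℝ) := by
    have := le_max_right x0 (4 * C / a + 2)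
    linarith
  have h5 := hx0 _ h3
  simp only [id, Real.norm_eq_abs] at h5
  have h6 : Real.log ((l : ℝ) + 1) ≤ a * Real.log 2 / (4 * C) * ((l : ℝ) + 1) := by
    have h7 : |(l : ℝ) + 1| = (l : ℝ) + 1 := abs_of_pos (by positivity)
    rw [h7] at h5
    exact (le_abs_self _).trans h5
  have h7 : (Nat.log 2 (l + 1) : ℝ) ≤ Real.log ((l : ℝ) + 1) / Real.log 2 := by
    rw [le_div_iff₀ h2, ← Real.log_pow]
    apply Real.log_le_log (by positivity)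
    have := Nat.pow_log_le_self 2 (x := l + 1) (by omega)
    exact_mod_cast this
  have h8 : Real.log ((l : ℝ) + 1) / Real.log 2 ≤ a / (4 * C) * ((l : ℝ) + 1) := by
    rw [div_le_iff₀ h2]
    calc Real.log ((l : ℝ) + 1) ≤ a * Real.log 2 / (4 * C) * ((l : ℝ) + 1) := h6
      _ = a / (4 * C) * ((l : ℝ) + 1) * Real.log 2 := by ring
  have h9 : C * ((Nat.log 2 (l + 1) : ℝ) + 1) ≤ C * (a / (4 * C) * ((l : ℝ) + 1) + 1) := by
    apply mul_le_mul_of_nonneg_left _ hC.le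
    linarith
  have h10 : C * (a / (4 * C) * ((l : ℝ) + 1) + 1) = a / 4 * ((l : ℝ) + 1) + C := by
    field_simp
  have h11 : 4 * C ≤ a * ((l : ℝ) - 2) := by
    have h12 : 4 * C / a ≤ (l : ℝ) - 2 := by linarith
    rw [div_le_iff₀ ha] at h12
    linarith
  rw [h10] at h9
  nlinarith

/-- The upper bound for the transposition time in terms of the multiplication time. -/
def Bound (C : ℝ) (n1 n2 : ℕ) (tA tB : ℕ) : Prop :=
  ∀ r : ℕ, (tB : ℝ) ≤ C * (((r : ℝ) + 1) * tA + (4 : ℝ) ^ ex n1 n2 *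
        ((ex n1 n2 : ℝ) / 2 ^ r + Nat.log 2 (ex n1 n2 + 1) + 1))

theorem core (C c : ℝ) (hC : 0 < C) (hc : 0 < c) :
    ∃ κ : ℝ, 0 < κ ∧ ∃ l1 : ℕ, ∀ n1 n2 tA tB : ℕ, 1 ≤ n1 → Near n1 n2 → l1 ≤ ex n1 n2 →
      Bound C n1 n2 tA tB → c * ((n1 : ℝ) * n2) * Real.log ((n1 : ℝ) * n2) ≤ tB →
      κ * (4 : ℝ) ^ ex n1 n2 * (ex n1 n2 : ℝ) ≤ tA := by
  have hlog4 : 0 < Real.log 4 := Real.log_pos (by norm_num)
  set a : ℝ := c * Real.log 4 / 32 with ha_def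
  have ha : 0 < a := by positivity
  obtain ⟨r, hr⟩ : ∃ r : ℕ, C / 2 ^ r ≤ a / 4 := by
    obtain ⟨r, hr⟩ := exists_nat_ge (4 * C / a)
    refine ⟨r, ?_⟩
    rw [div_le_iff₀ (by positivity)]
    have h1 : (r : ℝ) ≤ 2 ^ r := by exact_mod_cast (Nat.lt_two_pow_self (n := r)).le
    rw [div_le_iff₀ ha] at hr
    nlinarith
  obtain ⟨l0, hl0⟩ := eventually_log C (a / 4) hC (by positivity)
  refine ⟨a / (2 * C * (r + 1)), by positivity, max l0 4, fun n1 n2 tA tB h1 hnear hl4 hA hB => ?_⟩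
  replace hA := hA r
  set l := ex n1 n2 with hl
  have h7 : 4 ^ l ≤ 16 * (n1 * n2) := four_pow_ex_le h1 hnear
  have hll0 : l0 ≤ l := (le_max_left _ _).trans hl4
  have hll4 : 4 ≤ l := (le_max_right _ _).trans hl4
  have hlog := hl0 l hll0
  have h7' : (4 : ℝ) ^ l ≤ 16 * ((n1 : ℝ) * n2) := by exact_mod_cast h7
  have hl4' : (4 : ℝ) ≤ l := by exact_mod_cast hll4
  have hpow : (0 : ℝ) < 4 ^ l := by positivity
  have hlow : a * (4 : ℝ) ^ l * l ≤ tB := by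
    refine le_trans ?_ hB
    have e1 : (4 : ℝ) ^ l / 16 ≤ (n1 : ℝ) * n2 := by linarith
    have e2 : Real.log ((4 : ℝ) ^ l / 16) ≤ Real.log ((n1 : ℝ) * n2) :=
      Real.log_le_log (by positivity) e1
    have e3 : Real.log ((4 : ℝ) ^ l / 16) = (l - 2) * Real.log 4 := by
      rw [Real.log_div (by positivity) (by norm_num), Real.log_pow,
        show (16 : ℝ) = 4 ^ 2 by norm_num, Real.log_pow]
      push_cast
      ring
    have e4 : (l : ℝ) / 2 * Real.log 4 ≤ Real.log ((n1 : ℝ) * n2) := by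
      rw [e3] at e2
      refine le_trans ?_ e2
      apply mul_le_mul_of_nonneg_right _ hlog4.le
      linarith
    calc a * (4 : ℝ) ^ l * l = c * ((4 : ℝ) ^ l / 16) * ((l : ℝ) / 2 * Real.log 4) := by
          rw [ha_def]; ring
      _ ≤ c * ((n1 : ℝ) * n2) * Real.log ((n1 : ℝ) * n2) := by
          apply mul_le_mul _ e4 (by positivity) (by positivity)
          exact mul_le_mul_of_nonneg_left e1 hc.le
  have hup : (tB : ℝ) ≤ C * (r + 1) * tA + (a / 2) * (4 : ℝ) ^ l * l := by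
    refine hA.trans ?_
    have e1 : C * ((l : ℝ) / 2 ^ r) ≤ a / 4 * l := by
      calc C * ((l : ℝ) / 2 ^ r) = C / 2 ^ r * l := by ring
        _ ≤ a / 4 * l := mul_le_mul_of_nonneg_right hr (by positivity)
    have e2 : C * ((l : ℝ) / 2 ^ r + Nat.log 2 (l + 1) + 1) ≤ a / 2 * l := by
      calc C * ((l : ℝ) / 2 ^ r + Nat.log 2 (l + 1) + 1)
          = C * ((l : ℝ) / 2 ^ r) + C * (Nat.log 2 (l + 1) + 1) := by ring
        _ ≤ a / 4 * l + a / 4 * l := add_le_add e1 hlog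
        _ = a / 2 * l := by ring
    calc C * (((r : ℝ) + 1) * tA +
          (4 : ℝ) ^ l * ((l : ℝ) / 2 ^ r + Nat.log 2 (l + 1) + 1))
        = C * (r + 1) * tA +
          (4 : ℝ) ^ l * (C * ((l : ℝ) / 2 ^ r + Nat.log 2 (l + 1) + 1)) := by ring
      _ ≤ C * (r + 1) * tA + (4 : ℝ) ^ l * (a / 2 * l) := by
          gcongr
      _ = _ := by ring
  have hmain : a / 2 * (4 : ℝ) ^ l * l ≤ C * (r + 1) * tA := by linarith
  calc a / (2 * C * (r + 1)) * (4 : ℝ) ^ l * l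
      = (a / 2 * (4 : ℝ) ^ l * l) / (C * (r + 1)) := by
        field_simp
    _ ≤ tA := by
        rw [div_le_iff₀ (by positivity)]
        linarith

/-- `n log n` in terms of the padded size. -/
theorem size_log_le (C0 : ℕ) (hC0 : 0 < C0) : ∃ D : ℝ, 0 < D ∧ ∀ n l : ℕ, 1 ≤ n → 1 ≤ l →
    n ≤ 4 * C0 * 4 ^ l → (n : ℝ) * Real.log n ≤ D * ((4 : ℝ) ^ l * l) := by
  have hlog4 : 0 < Real.log 4 := Real.log_pos (by norm_num)
  set b : ℝ := Real.log (4 * C0) + Real.log 4 with hb_def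
  have hC0' : (1 : ℝ) ≤ C0 := by exact_mod_cast hC0
  have hb1 : 0 ≤ Real.log (4 * (C0 : ℝ)) := Real.log_nonneg (by linarith)
  have hb : 0 < b := by positivity
  refine ⟨4 * C0 * b, by positivity, fun n l hn hl h => ?_⟩
  have hn1 : (n : ℝ) ≤ 4 * C0 * 4 ^ l := by exact_mod_cast h
  have hn0' : (0 : ℝ) < n := by exact_mod_cast hn
  have hl' : (1 : ℝ) ≤ l := by exact_mod_cast hl
  have hlogn : Real.log n ≤ b * l := by
    have e1 : Real.log n ≤ Real.log (4 * C0 * 4 ^ l) := Real.log_le_log hn0' hn1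
    rw [Real.log_mul (by positivity) (by positivity), Real.log_pow] at e1
    refine e1.trans ?_
    rw [hb_def]
    nlinarith
  have hlogn0 : 0 ≤ Real.log n := Real.log_nonneg (by exact_mod_cast hn)
  calc (n : ℝ) * Real.log n ≤ (4 * C0 * 4 ^ l) * (b * l) :=
        mul_le_mul hn1 hlogn hlogn0 (by positivity)
    _ = _ := by ring

/-- The final asymptotic argument for one residue class. -/
theorem lower_bound_residue (C0 ρ : ℕ) (hC0 : 0 < C0) (hρ : ρ < C0) (TA : ℕ → ℕ)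
    (TB : ℕ → ℕ → ℕ) (C : ℝ) (hC : 0 < C)
    (hI : ∀ n1 n2 : ℕ, 1 ≤ n1 → 1 ≤ n2 → Near n1 n2 →
      Bound C n1 n2 (TA (C0 * mu n1 n2 + ρ)) (TB n1 n2))
    (hH : ∃ c : ℝ, 0 < c ∧ ∃ N : ℕ, ∀ n1 n2 : ℕ, N ≤ n1 → N ≤ n2 → Near n1 n2 →
      c * ((n1 : ℝ) * n2) * Real.log ((n1 : ℝ) * n2) ≤ TB n1 n2) :
    ∃ c : ℝ, 0 < c ∧ ∃ N : ℕ, ∀ m : ℕ, N ≤ m →
      c * ((C0 * m + ρ : ℕ) : ℝ) * Real.log ((C0 * m + ρ : ℕ) : ℝ) ≤ TA (C0 * m + ρ) := by
  obtain ⟨c, hc, N, hN⟩ := hH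
  obtain ⟨κ, hκ, l1, hcore⟩ := core C c hC hc
  obtain ⟨D, hD, hsize⟩ := size_log_le C0 hC0
  refine ⟨κ / D, by positivity,
    max (4 * N ^ 2 + 1) (2 * 4 ^ (max l1 1) + 1), fun m hm => ?_⟩
  have hm1 : 4 * N ^ 2 + 1 ≤ m := (le_max_left _ _).trans hm
  have hm2 : 2 * 4 ^ (max l1 1) + 1 ≤ m := (le_max_right _ _).trans hm
  obtain ⟨n1, n2, hmu, h1, h2, h3, h4, h5, h6⟩ := exists_shape m (by omega)
  have hnear : Near n1 n2 := ⟨h3, h4⟩
  have hNn1 : N ≤ n1 := by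
    by_contra hlt
    push Not at hlt
    have : n1 ^ 2 ≤ N ^ 2 := Nat.pow_le_pow_left hlt.le 2
    omega
  have hNn2 : N ≤ n2 := by
    by_contra hlt
    push Not at hlt
    have : n2 ^ 2 ≤ N ^ 2 := Nat.pow_le_pow_left hlt.le 2
    omega
  have hB := hN n1 n2 hNn1 hNn2 hnear
  have hA := hI n1 n2 h1 h2 hnear
  rw [hmu] at hA
  have h8 : n1 * n2 ≤ 4 ^ ex n1 n2 := mul_le_four_pow_ex n1 n2
  have h9 : m ≤ 2 * (n1 * n2) := hmu ▸ mu_le_two_mul h1 h2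
  have hl4 : max l1 1 ≤ ex n1 n2 := by
    by_contra hlt
    push Not at hlt
    have : 4 ^ ex n1 n2 ≤ 4 ^ (max l1 1) := Nat.pow_le_pow_right (by norm_num) hlt.le
    omega
  have hmain := hcore n1 n2 _ _ h1 hnear ((le_max_left _ _).trans hl4) hA hB
  have hn1 : C0 * m + ρ ≤ 4 * C0 * 4 ^ ex n1 n2 := by
    have e1 : C0 * m + ρ ≤ C0 * (m + 1) := by nlinarith
    have e2 : m + 1 ≤ 4 * 4 ^ ex n1 n2 := by omega
    calc C0 * m + ρ ≤ C0 * (m + 1) := e1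
      _ ≤ C0 * (4 * 4 ^ ex n1 n2) := Nat.mul_le_mul_left _ e2
      _ = _ := by ring
  have hn0 : 1 ≤ C0 * m + ρ := by
    have : 0 < C0 * m := Nat.mul_pos hC0 (by omega)
    omega
  have hfin := hsize _ _ hn0 ((le_max_right _ _).trans hl4) hn1
  calc κ / D * ((C0 * m + ρ : ℕ) : ℝ) * Real.log ((C0 * m + ρ : ℕ) : ℝ)
      = κ / D * (((C0 * m + ρ : ℕ) : ℝ) * Real.log ((C0 * m + ρ : ℕ) : ℝ)) := by ring
    _ ≤ κ / D * (D * ((4 : ℝ) ^ ex n1 n2 * (ex n1 n2 : ℝ))) :=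
        mul_le_mul_of_nonneg_left hfin (by positivity)
    _ = κ * (4 : ℝ) ^ ex n1 n2 * (ex n1 n2 : ℝ) := by
        field_simp
    _ ≤ _ := hmain

theorem mu_two_pow (j : ℕ) : mu (2 ^ j) (2 ^ j) = 4 ^ j := by
  unfold mu
  rw [Nat.log_pow (by norm_num), Nat.sub_self, Nat.add_zero, ← mul_pow]
  norm_num

theorem ex_two_pow (j : ℕ) : ex (2 ^ j) (2 ^ j) = j := by
  unfold ex
  rw [max_self, Nat.clog_pow _ _ (by norm_num)]

/-- The final asymptotic argument when only square matrices are known to be hard. -/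
theorem lower_bound_square (C0 : ℕ) (hC0 : 0 < C0) (TA : ℕ → ℕ)
    (TB : ℕ → ℕ → ℕ) (C : ℝ) (hC : 0 < C)
    (hI : ∀ n1 n2 : ℕ, 1 ≤ n1 → 1 ≤ n2 → Near n1 n2 →
      Bound C n1 n2 (TA (C0 * mu n1 n2)) (TB n1 n2))
    (hH : ∃ c : ℝ, 0 < c ∧ ∃ N : ℕ, ∀ n : ℕ, N ≤ n →
      c * (n : ℝ) ^ 2 * Real.log n ≤ TB n n) :
    ∃ c : ℝ, 0 < c ∧ ∃ N : ℕ, 2 ≤ N ∧ ∀ n : ℕ, N ≤ n → ∃ k : ℕ, k ≤ n ∧ n ≤ 4 * k ∧
      c * (n : ℝ) * Real.log n ≤ TA k := by
  obtain ⟨c, hc, N, hN⟩ := hH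
  obtain ⟨κ, hκ, l1, hcore⟩ := core C (c / 2) hC (by positivity)
  obtain ⟨D, hD, hsize⟩ := size_log_le C0 hC0
  refine ⟨κ / D, by positivity, C0 * 4 ^ (max l1 (N + 1)) + 2, by omega, fun n hn => ?_⟩
  set j := Nat.log 4 (n / C0) with hj
  have hnC0 : 4 ^ (max l1 (N + 1)) ≤ n / C0 := by
    rw [Nat.le_div_iff_mul_le hC0]
    nlinarith
  have hpos : 0 < n / C0 := lt_of_lt_of_le (by positivity) hnC0
  have hj1 : 4 ^ j ≤ n / C0 := Nat.pow_log_le_self 4 (by omega)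
  have hj2 : n / C0 < 4 ^ (j + 1) := Nat.lt_pow_succ_log_self (by norm_num) _
  have hj3 : max l1 (N + 1) ≤ j := by
    rw [hj]
    exact (Nat.le_log_iff_pow_le (by norm_num) (by omega)).2 hnC0
  have hjl : l1 ≤ j := (le_max_left _ _).trans hj3
  have hjN : N + 1 ≤ j := (le_max_right _ _).trans hj3
  have hN2 : N ≤ 2 ^ j := by
    have : j < 2 ^ j := Nat.lt_two_pow_self
    omega
  have hnear : Near (2 ^ j) (2 ^ j) := ⟨by omega, by omega⟩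
  have hp1 : 1 ≤ 2 ^ j := Nat.one_le_two_pow
  have hB := hN (2 ^ j) hN2
  have hA := hI (2 ^ j) (2 ^ j) hp1 hp1 hnear
  rw [mu_two_pow] at hA
  have hB' : c / 2 * (((2 ^ j : ℕ) : ℝ) * ((2 ^ j : ℕ) : ℝ)) *
      Real.log (((2 ^ j : ℕ) : ℝ) * ((2 ^ j : ℕ) : ℝ)) ≤ TB (2 ^ j) (2 ^ j) := by
    have hp : (0 : ℝ) < ((2 ^ j : ℕ) : ℝ) := by exact_mod_cast hp1
    rw [Real.log_mul hp.ne' hp.ne']
    refine le_trans (le_of_eq ?_) hB
    ring
  have hmain := hcore (2 ^ j) (2 ^ j) _ _ hp1 hnear (by rw [ex_two_pow]; exact hjl) hA hB'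
  rw [ex_two_pow] at hmain
  have hk1 : C0 * 4 ^ j ≤ n := by
    rw [Nat.le_div_iff_mul_le hC0] at hj1
    nlinarith
  have hk2 : n ≤ 4 * (C0 * 4 ^ j) := by
    rw [Nat.div_lt_iff_lt_mul hC0] at hj2
    rw [pow_succ] at hj2
    nlinarith
  refine ⟨C0 * 4 ^ j, hk1, hk2, ?_⟩
  have hfin := hsize n j (by omega) (by omega) (by nlinarith)
  calc κ / D * (n : ℝ) * Real.log (n : ℝ)
      = κ / D * ((n : ℝ) * Real.log (n : ℝ)) := by ring
    _ ≤ κ / D * (D * ((4 : ℝ) ^ j * (j : ℝ))) :=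
        mul_le_mul_of_nonneg_left hfin (by positivity)
    _ = κ * (4 : ℝ) ^ j * (j : ℝ) := by
        field_simp
    _ ≤ _ := hmain

/-- Collecting the residue classes. -/
theorem lower_bound_all (C0 : ℕ) (hC0 : 0 < C0) (TA : ℕ → ℕ)
    (h : ∀ ρ : ℕ, ρ < C0 → ∃ c : ℝ, 0 < c ∧ ∃ N : ℕ, ∀ m : ℕ, N ≤ m →
      c * ((C0 * m + ρ : ℕ) : ℝ) * Real.log ((C0 * m + ρ : ℕ) : ℝ) ≤ TA (C0 * m + ρ)) :
    ∃ c : ℝ, 0 < c ∧ ∃ N : ℕ, 2 ≤ N ∧ ∀ n : ℕ, N ≤ n →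
      c * (n : ℝ) * Real.log n ≤ TA n := by
  choose! c hc N hN using h
  have hne : (Finset.range C0).Nonempty := ⟨0, by simpa using hC0⟩
  refine ⟨(Finset.range C0).inf' hne c, ?_, C0 * ((Finset.range C0).sup N + 2) + 2, by omega,
    fun n hn => ?_⟩
  · rw [Finset.lt_inf'_iff]
    intro ρ hρ
    exact hc ρ (by simpa using hρ)
  · have hmod := Nat.mod_lt n hC0
    have hdm := Nat.div_add_mod n C0
    have h1 : N (n % C0) ≤ n / C0 := by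
      have h2 : N (n % C0) ≤ (Finset.range C0).sup N :=
        Finset.le_sup (f := N) (by simpa using hmod)
      have h3 : (Finset.range C0).sup N ≤ n / C0 := by
        rw [Nat.le_div_iff_mul_le hC0]
        nlinarith
      exact h2.trans h3
    have h4 := hN (n % C0) hmod (n / C0) h1
    rw [hdm] at h4
    refine le_trans ?_ h4
    have h5 : (Finset.range C0).inf' hne c ≤ c (n % C0) :=
      Finset.inf'_le _ (by simpa using hmod)
    have h6 : 0 ≤ Real.log n := Real.log_natCast_nonneg n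
    have h7 : (0 : ℝ) ≤ n := by positivity
    exact mul_le_mul_of_nonneg_right (mul_le_mul_of_nonneg_right h5 h7) h6

end Vale.Agent.P338.R2.H784
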