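import Vale.Agent.P338.R2.H968.PadCall
import Vale.Agent.P338.R2.H898.Comp

/-!
P338: the alphabet and the memory of the complete program.
-/

namespace Vale.Agent.P338.R2.H784

open Vale.Agent.P338.R2.H898
open Vale.Agent.P338.R2.H968

/-- The alphabet: the symbols of `A`, the letters, the symbol of the rulers, a second mark. -/
inductive Sy (S : Type)
  | a (x : S)
  | l (x : Letter)
  | u
  | k

instance {S : Type} [Finite S] : Finite (Sy S) := by
  let f : Sy S → Option (Option (S ⊕ Letter)) := fun
    | .u => none
    | .k => some none
    | .a x => some (some (Sum.inl x))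
    | .l x => some (some (Sum.inr x))
  refine Finite.of_injective f ?_
  intro x y h
  cases x <;> cases y <;> simp_all [f]

/-- The letter encoded by a symbol. -/
def Sy.dl {S : Type} : Sy S → Letter
  | .l x => x
  | _ => .zero

/-- The symbol of `A` encoded by a symbol. -/
def Sy.dec {S : Type} (b : S) : Sy S → S
  | .a x => x
  | _ => b

/-- The bit encoded by a symbol. -/
def Sy.unbit {S : Type} : Sy S → Bool
  | .l .one => true
  | _ => false

instance finiteCallMem (A : MTM) : Finite (CallMem A) := by
  have := A.finSym
  have := A.finTape
  have := A.finState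
  have : Finite Move := by
    let f : Move → Fin 3 := fun
      | .left => 0
      | .stay => 1
      | .right => 2
    refine Finite.of_injective f ?_
    intro a b h
    cases a <;> cases b <;> simp_all [f]
  let f : CallMem A → A.State × (A.Tape → A.Sym × Move) := fun x => (x.st, x.ac)
  refine Finite.of_injective f ?_
  rintro ⟨x, y⟩ ⟨x', y'⟩ h
  simp only [f, Prod.mk.injEq] at h
  rw [h.1, h.2]

/-- The environment of the calls, given the files. -/
def env (A : MTM) {F : Type} (file : A.Tape ⊕ CFile → F) (hfile : Function.Injective file) :
    CallEnv A (CallMem A) F (Sy A.Sym) (.a A.blank) where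
  file := file
  file_inj := hfile
  enc := .a
  dec := Sy.dec A.blank
  dec_enc := fun _ => rfl
  dec_d := rfl
  bit := fun b => .l (bitL b)
  unbit := Sy.unbit
  unbit_bit := by
    intro b
    cases b <;> rfl
  mark := .u
  get := id
  put := fun x _ => x
  get_put := fun _ _ => rfl
  put_put := fun _ _ _ => rfl

end Vale.Agent.P338.R2.H784
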