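import Vale.Agent.P338.R2.H784.Unary

/-!
P338: arithmetic with unary rulers.
-/

namespace Vale.Agent.P338.R2.H784

open Vale.Agent.P338.R2.H898
open Function (update)

set_option linter.unusedSectionVars false

variable {M F α : Type} [DecidableEq F] {d u : α}

theorem Keep.upd {S : List F} {s s' : Store M F α} (h : Keep S s s') {f : F} (hf : f ∈ S)
    (v : Zip α) : Keep S s ⟨s'.m, update s'.z f v⟩ := ⟨h.1, h.2.update hf⟩

theorem Len.upd {i j : ℕ} {s : Store M F α} {f g : F} (h : Len u i j (s.z g)) (hg : g ≠ f)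
    (v : Zip α) : Len u i j ((⟨s.m, update s.z f v⟩ : Store M F α).z g) := by
  simpa [Function.update_of_ne hg] using h

/-- Double the length of the ruler `w` (head at the end), with the help of the file `t`. -/
def double (w t : F) (u : α) : Prog M F α :=
  .seq (op w .rew) (.seq (mvU w t u) (.seq (op t .rew) (.seq (mvU t w u) (clr t))))

theorem tri_double {w t : F} (hwt : w ≠ t) {s : Store M F α} {n : ℕ}
    (hw : Len u n 0 (s.z w)) (ht : Len u 0 0 (s.z t)) :
    Tri d (double w t u) s (8 * n + 6) (fun s' => Len u (2 * n) 0 (s'.z w) ∧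
      Len u 0 0 (s'.z t) ∧ Keep [w, t] s s') := by
  refine (Tri.seq (t' := 8 * n + 5) (tri_rew hw) ?_).cost (by omega)
  rintro s1 ⟨h1, k1⟩
  refine (Tri.seq (t' := 4 * n + 4) (tri_mvU hwt h1 (k1.len (by simp [hwt.symm]) ht)) ?_).cost
    (by omega)
  rintro s2 ⟨h2, h2', k2⟩
  refine (Tri.seq (t' := 4 * n + 3) (tri_rew h2') ?_).cost (by omega)
  rintro s3 ⟨h3, k3⟩
  have h3' : Len u (0 + (n + 0)) 0 (s3.z w) := k3.len (by simp [hwt]) (by simpa using h2)
  refine (Tri.seq (t' := 2) (tri_mvU hwt.symm h3 h3') ?_).cost (by omega)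
  rintro s4 ⟨h4, h4', k4⟩
  refine (tri_clr t s4).post ?_
  rintro s5 ⟨h5, k5⟩
  refine ⟨?_, h5, ?_⟩
  · have : Len u (0 + (n + 0) + (0 + (n + 0) + 0)) 0 (s5.z w) := k5.len (by simp [hwt]) (by
      simpa using h4')
    have e : 2 * n = 0 + (n + 0) + (0 + (n + 0) + 0) := by omega
    rw [e]
    exact this
  · exact (k1.mono (by simp)).trans (k2.trans ((k3.mono (by simp)).trans
      ((k4.mono (by simp)).trans (k5.mono (by simp)))))

/-- `k := 2 ^ |e|`. -/
def pow2 (e k t : F) (u : α) : Prog M F α :=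
  .seq (clr k) (.seq (put k u) (.seq (forU e (double k t u)) (op k .rew)))

theorem sum_pow (n : ℕ) : (∑ i ∈ Finset.range n, (8 * 2 ^ i + 6 + 2)) + 2 ≤ 8 * 2 ^ n + 8 * n := by
  induction n with
  | zero => simp
  | succ n ih =>
    rw [Finset.sum_range_succ]
    have : 2 ^ (n + 1) = 2 * 2 ^ n := by ring
    omega

theorem tri_pow2 {e k t : F} (hek : e ≠ k) (het : e ≠ t) (hkt : k ≠ t)
    {s : Store M F α} {n : ℕ} (he : Len u 0 n (s.z e)) (ht : Len u 0 0 (s.z t)) :
    Tri d (pow2 e k t u) s (8 * 2 ^ n + 8 * n + 5) (fun s' => Len u 0 (2 ^ n) (s'.z k) ∧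
      Len u 0 n (s'.z e) ∧ Len u 0 0 (s'.z t) ∧ Keep [k, t, e] s s') := by
  refine (Tri.seq (t' := 8 * 2 ^ n + 8 * n + 3) (tri_clr k s) ?_).cost (by omega)
  rintro s1 ⟨h1, k1⟩
  refine (Tri.seq (t' := 8 * 2 ^ n + 8 * n + 1) (tri_put (u := u) (i := 0) h1) ?_).cost (by omega)
  rintro s2 ⟨h2, k2⟩
  have k12 : Keep [k] s s2 := k1.trans k2
  have he2 : Len u 0 n (s2.z e) := k12.len (by simp [hek]) he
  have ht2 : Len u 0 0 (s2.z t) := k12.len (by simp [hkt.symm]) ht
  have hloop := tri_forU' (d := d) (f := e) (p := double k t u) (n := n)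
    (fun i s' => Len u (2 ^ i) 0 (s'.z k) ∧ Len u 0 0 (s'.z t) ∧ Keep [k, t, e] s s')
    (fun i => 8 * 2 ^ i + 6) ?_ ?_ he2 ⟨by simpa using h2, ht2, k12.mono (by simp)⟩
  · refine (Tri.seq (t' := 1) hloop ?_).cost ?_
    · rintro s3 ⟨h3, h4, h5, h6⟩
      refine (tri_rew h4).post ?_
      rintro s4 ⟨h7, k7⟩
      exact ⟨by simpa using h7, k7.len (by simp [hek]) h3, k7.len (by simp [hkt.symm]) h5,
        h6.trans (k7.mono (by simp))⟩
    · have := sum_pow n
      omega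
  · rintro i s' v ⟨h3, h4, h5⟩
    exact ⟨h3.upd hek.symm v, h4.upd het.symm v, h5.upd (by simp) v⟩
  · rintro i hi s' - ⟨h3, h4, h5⟩
    refine (tri_double hkt h3 h4).post ?_
    rintro s'' ⟨h6, h7, h8⟩
    refine ⟨h8.z (by simp [hek, het]), ?_, h7, h5.trans (h8.mono (by simp))⟩
    rw [pow_succ, mul_comm]
    exact h6

/-- `c := |a| * |b|`. -/
def mulU (a b c : F) (u : α) : Prog M F α :=
  .seq (clr c) (.seq (forU a (forU b (put c u))) (op c .rew))

theorem tri_forPut {b c : F} (hbc : b ≠ c) {s : Store M F α} {j i : ℕ}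
    (hb : Len u 0 j (s.z b)) (hc : Len u i 0 (s.z c)) :
    Tri d (forU b (put c u)) s (4 * j + 2) (fun s' => Len u (i + j) 0 (s'.z c) ∧
      Len u 0 j (s'.z b) ∧ Keep [b, c] s s') := by
  refine (tri_forU (d := d) (f := b) (p := put c u) (n := j)
    (fun n s' => Len u (i + n) 0 (s'.z c) ∧ Keep [b, c] s s') 2 ?_ ?_ hb
    ⟨by simpa using hc, Keep.refl _ _⟩).mono (by omega) ?_
  · rintro n s' v ⟨h3, h5⟩
    exact ⟨h3.upd hbc.symm v, h5.upd (by simp) v⟩
  · rintro n hn s' - ⟨h3, h5⟩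
    refine (tri_put h3).post ?_
    rintro s'' ⟨h6, h7⟩
    exact ⟨h7.z (by simp [hbc]), h6, h5.trans (h7.mono (by simp))⟩
  · rintro s' ⟨h3, h4, h5⟩
    exact ⟨h4, h3, h5⟩

theorem tri_mulU {a b c : F} (hab : a ≠ b) (hac : a ≠ c) (hbc : b ≠ c)
    {s : Store M F α} {m n : ℕ} (ha : Len u 0 m (s.z a)) (hb : Len u 0 n (s.z b)) :
    Tri d (mulU a b c u) s (4 * (m * n) + 4 * m + 5) (fun s' => Len u 0 (m * n) (s'.z c) ∧
      Len u 0 m (s'.z a) ∧ Len u 0 n (s'.z b) ∧ Keep [a, b, c] s s') := by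
  refine (Tri.seq (t' := 4 * (m * n) + 4 * m + 3) (tri_clr c s) ?_).cost (by omega)
  rintro s1 ⟨h1, k1⟩
  have ha1 : Len u 0 m (s1.z a) := k1.len (by simp [hac]) ha
  have hloop := tri_forU (d := d) (f := a) (p := forU b (put c u)) (n := m)
    (fun i s' => Len u (i * n) 0 (s'.z c) ∧ Len u 0 n (s'.z b) ∧ Keep [a, b, c] s s')
    (4 * n + 2) ?_ ?_ ha1 ⟨by simpa [Len] using h1, k1.len (by simp [hbc]) hb, k1.mono (by simp)⟩
  · refine (Tri.seq (t' := 1) hloop ?_).cost ?_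
    · rintro s3 ⟨h3, h4, h5, h6⟩
      refine (tri_rew h4).post ?_
      rintro s4 ⟨h7, k7⟩
      exact ⟨by simpa using h7, k7.len (by simp [hac]) h3, k7.len (by simp [hbc]) h5,
        h6.trans (k7.mono (by simp))⟩
    · rw [Nat.mul_add, Nat.mul_add]
      nlinarith
  · rintro i s' v ⟨h3, h4, h5⟩
    exact ⟨h3.upd hac.symm v, h4.upd hab.symm v, h5.upd (by simp) v⟩
  · rintro i hi s' - ⟨h3, h4, h5⟩
    refine (tri_forPut hbc h4 h3).post ?_
    rintro s'' ⟨h6, h7, h8⟩
    refine ⟨h8.z (by simp [hab, hac]), ?_, h7, h5.trans (h8.mono (by simp))⟩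
    rw [Nat.add_mul, Nat.one_mul]
    exact h6

/-- `b := |a|` (copy). -/
def cpU (a b : F) (u : α) : Prog M F α :=
  .seq (clr b) (.seq (forU a (put b u)) (op b .rew))

theorem tri_cpU {a b : F} (hab : a ≠ b) {s : Store M F α} {n : ℕ} (ha : Len u 0 n (s.z a)) :
    Tri d (cpU a b u) s (4 * n + 5) (fun s' => Len u 0 n (s'.z b) ∧
      Len u 0 n (s'.z a) ∧ Keep [a, b] s s') := by
  refine (Tri.seq (t' := 4 * n + 3) (tri_clr b s) ?_).cost (by omega)
  rintro s1 ⟨h1, k1⟩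
  have ha1 : Len u 0 n (s1.z a) := k1.len (by simp [hab]) ha
  refine (Tri.seq (t' := 1) (tri_forPut hab ha1 (i := 0) h1) ?_)
  rintro s3 ⟨h3, h4, h5⟩
  refine (tri_rew h3).post ?_
  rintro s4 ⟨h7, k7⟩
  exact ⟨by simpa using h7, k7.len (by simp [hab]) h4,
    (k1.mono (by simp)).trans (h5.trans (k7.mono (by simp)))⟩

/-- `h2 := ceil (|h| / 2)`, `k := floor (|h| / 2)`. -/
def halve (h h2 k : F) (u : α) : Prog M F α :=
  .seq (clr h2) (.seq (clr k) (.seq
    (.loop (fun _ r => (r h).isSome) (.seq (put h2 u) (.seq (op h .right)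
      (.ite (fun _ r => (r h).isSome) (.seq (put k u) (op h .right)) nop))))
    (.seq (op h .rew) (.seq (op h2 .rew) (op k .rew)))))

theorem tri_halve {h h2 k : F} (hh : h ≠ h2) (hk : h ≠ k) (h2k : h2 ≠ k)
    {s : Store M F α} {n : ℕ} (hn : Len u 0 n (s.z h)) :
    Tri d (halve h h2 k u) s (8 * n + 16) (fun s' => Len u 0 ((n + 1) / 2) (s'.z h2) ∧
      Len u 0 (n / 2) (s'.z k) ∧ Len u 0 n (s'.z h) ∧ Keep [h, h2, k] s s') := by
  refine (Tri.seq (t' := 8 * n + 14) (tri_clr h2 s) ?_).cost (by omega)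
  rintro s1 ⟨h1, k1⟩
  refine (Tri.seq (t' := 8 * n + 12) (tri_clr k s1) ?_).cost (by omega)
  rintro s2 ⟨h2', k2⟩
  have hn2 : Len u 0 n (s2.z h) := k2.len (by simp [hk]) (k1.len (by simp [hh]) hn)
  have h12 : Len u 0 0 (s2.z h2) := k2.len (by simp [h2k]) h1
  have h22 : Len u 0 0 (s2.z k) := h2'
  have hloop := Tri.loop (d := d) (c := fun _ r => (r h).isSome) (p := .seq (put h2 u)
      (.seq (op h .right) (.ite (fun _ r => (r h).isSome) (.seq (put k u) (op h .right)) nop)))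
    ((n + 1) / 2) (fun i s' => Len u (min n (2 * i)) (n - 2 * i) (s'.z h) ∧ Len u i 0 (s'.z h2) ∧
      Len u (min (n / 2) i) 0 (s'.z k) ∧ Keep [h, h2, k] s s') 7 ?_ ?_ ?_ (s := s2)
      ⟨by simpa using hn2, h12, by simpa using h22,
        (k1.mono (by simp)).trans (k2.mono (by simp))⟩
  · refine (Tri.seq (t' := 3) hloop ?_).cost (by omega)
    rintro s3 ⟨h3, h4, h5, h6⟩
    refine (Tri.seq (t' := 2) (tri_rew h3) ?_)
    rintro s4 ⟨h7, k7⟩
    refine (Tri.seq (t' := 1) (tri_rew (k7.len (by simp [hh.symm]) h4)) ?_)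
    rintro s5 ⟨h8, k8⟩
    have h5' : Len u (min (n / 2) ((n + 1) / 2)) 0 (s5.z k) :=
      k8.len (by simp [h2k.symm]) (k7.len (by simp [hk.symm]) h5)
    refine (tri_rew h5').post ?_
    rintro s6 ⟨h9, k9⟩
    refine ⟨?_, ?_, ?_, h6.trans ((k7.mono (by simp)).trans ((k8.mono (by simp)).trans
      (k9.mono (by simp))))⟩
    · simpa using k9.len (by simp [h2k]) h8
    · have e : min (n / 2) ((n + 1) / 2) + 0 = n / 2 := by omega
      rw [e] at h9
      exact h9
    · have e : min n (2 * ((n + 1) / 2)) + (n - 2 * ((n + 1) / 2)) = n := by omega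
      rw [e] at h7
      exact k9.len (by simp [hk]) (k8.len (by simp [hh]) h7)
  · rintro i hi s' ⟨h3, _⟩
    rw [Store.reads, h3.peek_isSome]
    simp
    omega
  · rintro s' ⟨h3, _⟩
    rw [Store.reads, h3.peek_isSome]
    simp
    omega
  · rintro i hi s3 ⟨h3, h4, h5, h6⟩
    refine (Tri.seq (t' := 5) (tri_put h4) ?_)
    rintro s4 ⟨h7, k7⟩
    obtain ⟨j', hj'⟩ : ∃ j', n - 2 * i = j' + 1 := ⟨n - 2 * i - 1, by omega⟩
    have hm : min n (2 * i) = 2 * i := by omega
    have hm2 : min (n / 2) i = i := by omega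
    rw [hj', hm] at h3
    rw [hm2] at h5
    have h3' : Len u (2 * i) (j' + 1) (s4.z h) := k7.len (by simp [hh]) h3
    refine (Tri.seq (t' := 4) (tri_right h3') ?_)
    rintro s5 ⟨h8, k8⟩
    refine (Tri.ite (t := 3) ?_ ?_)
    · intro hc
      rw [Store.reads, h8.peek_isSome] at hc
      simp at hc
      obtain ⟨j'', rfl⟩ : ∃ j'', j' = j'' + 1 := ⟨j' - 1, by omega⟩
      have h5' : Len u i 0 (s5.z k) := k8.len (by simp [hk.symm]) (k7.len (by simp [h2k.symm]) h5)
      refine (Tri.seq (t' := 1) (tri_put h5') ?_)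
      rintro s6 ⟨h9, k9⟩
      refine (tri_right (k9.len (by simp [hk]) h8)).post ?_
      rintro s7 ⟨h10, k10⟩
      refine ⟨?_, ?_, ?_, h6.trans ((k7.mono (by simp)).trans ((k8.mono (by simp)).trans
        ((k9.mono (by simp)).trans (k10.mono (by simp)))))⟩
      · have e1 : min n (2 * (i + 1)) = 2 * i + 1 + 1 := by omega
        have e2 : n - 2 * (i + 1) = j'' := by omega
        rw [e1, e2]
        exact h10
      · exact k10.len (by simp [hh.symm]) (k9.len (by simp [h2k]) (k8.len (by simp [hh.symm]) h7))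
      · have e1 : min (n / 2) (i + 1) = i + 1 := by omega
        rw [e1]
        exact k10.len (by simp [hk.symm]) h9
    · intro hc
      rw [Store.reads, h8.peek_isSome] at hc
      simp at hc
      subst hc
      refine (Tri.of_run (run_nop s5.m s5.z) ?_).cost (by omega)
      refine ⟨?_, ?_, ?_, h6.trans ((k7.mono (by simp)).trans (k8.mono (by simp)))⟩
      · have e1 : min n (2 * (i + 1)) = 2 * i + 1 := by omega
        have e2 : n - 2 * (i + 1) = 0 := by omega
        rw [e1, e2]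
        exact h8
      · exact k8.len (by simp [hh.symm]) h7
      · have e1 : min (n / 2) (i + 1) = i := by omega
        rw [e1]
        exact k8.len (by simp [hk.symm]) (k7.len (by simp [h2k.symm]) h5)

end Vale.Agent.P338.R2.H784
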