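import Vale.Agent.P338.R2.H784.Top
import Vale.Agent.P338.R2.H778.CostSum
import Vale.Agent.P338.R2.H898.Final

/-!
P338: from the programs of a round and of the size to the Turing machine for the transposition.
-/

namespace Vale.Agent.P338.R2.H784

open Vale.Agent.P338.R2.H898

set_option linter.unusedSectionVars false

/-- The length of the multiplied numbers. -/
def NN (C₀ ρ l r s : ℕ) : ℕ := max (C₀ * H784.mu r s + ρ) (576 * 4 ^ l)

theorem Tot.conv {l T N c1 c2 h t : ℕ} (ht : Tot (2 * T) N (4 ^ l) c1 c2 h t) :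
    H778.Tot l T c1 c2 N h t := by
  induction ht with
  | small h1 => exact .base _ h1
  | stop h1 h2 h3 => exact .stop _ _ h1 h2 h3
  | cont h1 h2 h3 _ ih => exact .step _ _ _ h1 h2 h3 ih

theorem length_matWord_le {r s : ℕ} (hr : 1 ≤ r) (N : Fin r → Fin s → Bool) :
    (matWord N).length ≤ r * (s + 1) := by
  have := H207.word_length (fun x : Letter => x) hr N
  rw [List.length_map] at this
  omega

theorem machine_of_specs {A : MTM} {C₀ ρ : ℕ} {M F α : Type} [Finite M] [Fintype F]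
    [DecidableEq F] [Finite α] [DecidableEq α] {d u : α} {enc : Letter → α} {dl : α → Letter}
    (hdl : ∀ a, dl (enc a) = a) (m0 : M) {j : TF → F} (hj : Function.Injective j)
    {RR : Store M F α → Prop}
    (hRR : ∀ s s' : Store M F α, RR s → s'.m = s.m → (∀ f, (∀ x, f ≠ j x) → s'.z f = s.z f) →
      RR s')
    (hRR0 : ∀ s : Store M F α, s.m = m0 → (∀ f, (∀ x, f ≠ j x) → s.z f = ⟨[], []⟩) → RR s)
    {rd nrp : Prog M F α} {c1 cn : ℕ}
    (hround : RoundSpec d u (fun b => enc (bitL b)) j rd RR (fun n => 2 * mulTime A n) c1)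
    (hnr : NrSpec d u j nrp (NN C₀ ρ) cn) :
    ∃ B : MTM, ∀ r s : ℕ, 1 ≤ r → 1 ≤ s → ∀ N : Fin r → Fin s → Bool,
      B.Computes (matWord N) (matWord fun a b => N b a) ∧
      ∃ t, H778.Tot (ex r s) (mulTime A (NN C₀ ρ (ex r s) r s)) (c1 + 36) (120 + 12)
        (NN C₀ ρ (ex r s) r s) (ex r s) t ∧
        B.time (matWord N) ≤ (8 * cn + 2000) * (t + 4 ^ ex r s + NN C₀ ρ (ex r s) r s) := by
  have henc : Function.Injective enc := fun a b h => by rw [← hdl a, ← hdl b, h]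
  obtain ⟨B, hB⟩ := Comp.machine (M := M) (F := F) (α := α) d enc dl hdl m0 (j .fin) (j .fout)
    (topProg j enc u rd nrp)
  refine ⟨B, fun r s hr hs N => ?_⟩
  obtain ⟨t, s', ht, hrun, hout⟩ := run_top (d := d) (u := u) henc hj hRR hRR0 hround hnr
    (fun l r s => le_max_right _ _) hr hs N (l := ex r s) rfl
  obtain ⟨h1, h2⟩ := hB (matWord N) (matWord fun a b => N b a) _ s' hrun hout
  refine ⟨h1, t, ht.conv, h2.trans ?_⟩
  have e1 := length_matWord_le hr N
  have e2 := length_matWord_le hs (fun a b => N b a)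
  have e3 : r ≤ 2 ^ ex r s := le_two_pow_ex_left r s
  have e4 : s ≤ 2 ^ ex r s := le_two_pow_ex_right r s
  have e5 : (4 : ℕ) ^ ex r s = 2 ^ ex r s * 2 ^ ex r s := by
    rw [← mul_pow]
    norm_num
  have e6 : 1 ≤ 2 ^ ex r s := Nat.one_le_two_pow
  have e7 : r * (s + 1) ≤ 2 * 4 ^ ex r s := by
    rw [e5]
    calc r * (s + 1) ≤ 2 ^ ex r s * (2 ^ ex r s + 2 ^ ex r s) :=
          Nat.mul_le_mul e3 (by omega)
      _ = 2 * (2 ^ ex r s * 2 ^ ex r s) := by ring
  have e8 : s * (r + 1) ≤ 2 * 4 ^ ex r s := by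
    rw [e5]
    calc s * (r + 1) ≤ 2 ^ ex r s * (2 ^ ex r s + 2 ^ ex r s) :=
          Nat.mul_le_mul e4 (by omega)
      _ = 2 * (2 ^ ex r s * 2 ^ ex r s) := by ring
  have e9 : 1 ≤ 4 ^ ex r s := Nat.one_le_pow _ _ (by norm_num)
  set D := 4 ^ ex r s
  set n := NN C₀ ρ (ex r s) r s
  have e10 : 8 * (t + (cn + 140) * D) + 4 * (matWord N).length +
      2 * (matWord fun a b => N b a).length + 13 ≤ 8 * t + (8 * cn + 1120 + 12 + 13) * D := by
    nlinarith
  refine e10.trans ?_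
  nlinarith [Nat.zero_le (cn * t), Nat.zero_le ((8 * cn + 2000) * n), Nat.zero_le t]

theorem NN_of_near {ρ r s : ℕ} (hr : 1 ≤ r) (h : Near r s) :
    NN 18432 ρ (ex r s) r s = 18432 * mu r s + ρ := by
  unfold NN
  apply max_eq_left
  have h1 := four_pow_ex_le hr h
  have h2 := mul_le_two_mu (n1 := r) (n2 := s)
  omega

/-- **The reduction, in terms of the programs of its parts.** -/
theorem bound_of_specs {A : MTM} {ρ : ℕ} (hρ : ρ < 18432) {M F α : Type} [Finite M] [Fintype F]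
    [DecidableEq F] [Finite α] [DecidableEq α] {d u : α} {enc : Letter → α} {dl : α → Letter}
    (hdl : ∀ a, dl (enc a) = a) (m0 : M) {j : TF → F} (hj : Function.Injective j)
    {RR : Store M F α → Prop}
    (hRR : ∀ s s' : Store M F α, RR s → s'.m = s.m → (∀ f, (∀ x, f ≠ j x) → s'.z f = s.z f) →
      RR s')
    (hRR0 : ∀ s : Store M F α, s.m = m0 → (∀ f, (∀ x, f ≠ j x) → s.z f = ⟨[], []⟩) → RR s)
    {rd nrp : Prog M F α} {c1 cn : ℕ}
    (hround : RoundSpec d u (fun b => enc (bitL b)) j rd RR (fun n => 2 * mulTime A n) c1)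
    (hnr : NrSpec d u j nrp (NN 18432 ρ) cn) :
    ∃ B : MTM, Transposes B ∧ ∃ C : ℝ, ∀ r s : ℕ, 1 ≤ r → 1 ≤ s → Near r s →
      ∀ N : Fin r → Fin s → Bool,
        Bound C r s (mulTime A (18432 * H898.mu r s + ρ)) (B.time (matWord N)) := by
  obtain ⟨B, hB⟩ := machine_of_specs hdl m0 hj hRR hRR0 hround hnr
  refine ⟨B, fun r s hr hs N => (hB r s hr hs N).1, (((8 * cn + 2000) *
    (H778.costConst (c1 + 36) (120 + 12) (3 * 18432) + 3 * 18432 + 1) : ℕ) : ℝ),
    fun r s hr hs h N => ?_⟩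
  obtain ⟨-, t, ht, htime⟩ := hB r s hr hs N
  rw [NN_of_near hr h] at ht htime
  refine H778.Tot.toBound (c3 := 3 * 18432) ?_ ht htime
  have h1 := mul_le_four_pow_ex r s
  have h2 := mu_le_two_mul hr hs
  have h3 : 1 ≤ 4 ^ ex r s := Nat.one_le_pow _ _ (by norm_num)
  omega

end Vale.Agent.P338.R2.H784
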