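import Vale.Agent.P338.R2.H784.Prep
import Vale.Agent.P338.R2.H968.DirectBits

/-!
P338: a direct pass together with the computation of its rulers.
-/

namespace Vale.Agent.P338.R2.H784

open Vale.Agent.P338.R2.H898
open Vale.Agent.P338.R2.H525 (dBits)
open Function (update)

set_option linter.unusedSectionVars false

/-- The files of a direct pass with its rulers. -/
inductive DW
  | dat
  | hh
  | el
  | x1
  | x2
  | t
  | rK
  | rG
  | rL
  | a
  | b
  | c
  | e
  deriving DecidableEq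

/-- The files of the pass itself. -/
def dwι : H968.DFile → DW
  | .dat => .dat
  | .a => .a
  | .b => .b
  | .c => .c
  | .e => .e
  | .rK => .rK
  | .rG => .rG
  | .rL => .rL

theorem dwι_inj : Function.Injective dwι := by
  intro x y h
  cases x <;> cases y <;> simp_all [dwι]

variable {M F α : Type} [DecidableEq F] {d u : α}

/-- The direct pass with its rulers. -/
def directW (j : DW → F) (u e : α) : Prog M F α :=
  .seq (diffU (j .el) (j .hh) (j .x1) u) (.seq (cpU (j .hh) (j .x2) u) (.seq (decU (j .x2))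
    (.seq (clr (j .t)) (.seq (pow2 (j .x1) (j .rK) (j .t) u) (.seq (pow2 (j .x2) (j .rL) (j .t) u)
    (.seq (mulU (j .rL) (j .rK) (j .rG) u) (H968.direct e (j ∘ dwι))))))))

theorem tri_directW {j : DW → F} (hj : Function.Injective j) {e : α} (enc : Bool → α) {l h : ℕ}
    (hl : h + 1 ≤ l) (N : ℕ → ℕ → Bool) {s : Store M F α}
    (hel : Len u 0 l (s.z (j .el))) (hhh : Len u 0 (h + 1) (s.z (j .hh)))
    (hdat : s.z (j .dat) = ⟨[], (dBits l (h + 1) N).map enc⟩)
    (ha : s.z (j .a) = ⟨[], []⟩) (hb : s.z (j .b) = ⟨[], []⟩) (hc : s.z (j .c) = ⟨[], []⟩)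
    (he : s.z (j .e) = ⟨[], []⟩) :
    Tri d (directW j u e) s (120 * 4 ^ l) (fun s' =>
      s'.z (j .dat) = ⟨[], (dBits l h N).map enc⟩ ∧
      Keep [j .dat, j .x1, j .x2, j .t, j .rK, j .rG, j .rL] s s') := by
  have hne : ∀ {x y : DW}, x ≠ y → j x ≠ j y := fun h h' => h (hj h')
  have h2l : 2 ^ l * 2 ^ l = 4 ^ l := by
    rw [← mul_pow]
    norm_num
  have hl1 : l < 2 ^ l := Nat.lt_two_pow_self
  have hp1 : 2 ^ (l - (h + 1)) ≤ 2 ^ l := Nat.pow_le_pow_right (by norm_num) (by omega)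
  have hp2 : 2 ^ h ≤ 2 ^ l := Nat.pow_le_pow_right (by norm_num) (by omega)
  have hp3 : 2 ^ h * 2 ^ (l - (h + 1)) ≤ 2 ^ l := by
    rw [← pow_add]
    exact Nat.pow_le_pow_right (by norm_num) (by omega)
  have h1 : 1 ≤ 2 ^ l := Nat.one_le_two_pow
  have h4 : 2 ^ l ≤ 4 ^ l := by
    rw [← h2l]
    exact Nat.le_mul_of_pos_left _ h1
  have hD1 : 1 ≤ 4 ^ l := by omega
  refine (Tri.seq (t' := 100 * 4 ^ l + 9 * 4 ^ l)
    (tri_diffU (hne (by decide)) (hne (by decide)) (hne (by decide)) hl hel hhh) ?_).cost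
    (by omega)
  rintro s1 ⟨q1, hel1, hhh1, k1⟩
  refine (Tri.seq (t' := 100 * 4 ^ l) (tri_cpU (hne (by decide)) hhh1) ?_).cost (by omega)
  rintro s2 ⟨q2, hhh2, k2⟩
  refine (Tri.seq (t' := 90 * 4 ^ l) (tri_decU q2) ?_).cost (by omega)
  rintro s3 ⟨q3, k3⟩
  refine (Tri.seq (t' := 88 * 4 ^ l) (tri_clr (j .t) s3) ?_).cost (by omega)
  rintro s4 ⟨q4, k4⟩
  have hx1 : Len u 0 (l - (h + 1)) (s4.z (j .x1)) :=
    k4.len (by simp [hj.eq_iff]) (k3.len (by simp [hj.eq_iff]) (k2.len (by simp [hj.eq_iff]) q1))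
  refine (Tri.seq (t' := 64 * 4 ^ l)
    (tri_pow2 (hne (by decide)) (hne (by decide)) (hne (by decide)) hx1 (by exact q4)) ?_).cost
    (by omega)
  rintro s5 ⟨q5, -, ht5, k5⟩
  have hx2 : Len u 0 h (s5.z (j .x2)) :=
    k5.len (by simp [hj.eq_iff]) (k4.len (by simp [hj.eq_iff]) q3)
  refine (Tri.seq (t' := 40 * 4 ^ l)
    (tri_pow2 (hne (by decide)) (hne (by decide)) (hne (by decide)) hx2 ht5) ?_).cost
    (by omega)
  rintro s6 ⟨q6, -, ht6, k6⟩
  have hK6 : Len u 0 (2 ^ (l - (h + 1))) (s6.z (j .rK)) := k6.len (by simp [hj.eq_iff]) q5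
  refine (Tri.seq (t' := 24 * 4 ^ l)
    (tri_mulU (hne (by decide)) (hne (by decide)) (hne (by decide)) q6 hK6) ?_).cost
    (by omega)
  rintro s7 ⟨q7, hL7, hK7, k7⟩
  have kk : Keep [j .x1, j .x2, j .t, j .rK, j .rG, j .rL, j .el, j .hh] s s7 :=
    (k1.mono (by simp)).trans ((k2.mono (by simp)).trans ((k3.mono (by simp)).trans
      ((k4.mono (by simp)).trans ((k5.mono (by simp)).trans ((k6.mono (by simp)).trans
      (k7.mono (by simp)))))))
  have hel7 : s7.z (j .el) = s.z (j .el) := by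
    rw [hel]
    exact k7.len (by simp [hj.eq_iff]) (k6.len (by simp [hj.eq_iff]) (k5.len (by simp [hj.eq_iff])
      (k4.len (by simp [hj.eq_iff]) (k3.len (by simp [hj.eq_iff]) (k2.len (by simp [hj.eq_iff])
      hel1)))))
  have hhh7 : s7.z (j .hh) = s.z (j .hh) := by
    rw [hhh]
    exact k7.len (by simp [hj.eq_iff]) (k6.len (by simp [hj.eq_iff]) (k5.len (by simp [hj.eq_iff])
      (k4.len (by simp [hj.eq_iff]) (k3.len (by simp [hj.eq_iff]) hhh2))))
  have kk' : Keep [j .x1, j .x2, j .t, j .rK, j .rG, j .rL] s s7 := by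
    refine ⟨kk.1, fun f hf => ?_⟩
    by_cases h1 : f = j .el
    · rw [h1]; exact hel7
    · by_cases h2 : f = j .hh
      · rw [h2]; exact hhh7
      · apply kk.z
        simp only [List.mem_cons, List.not_mem_nil, or_false] at hf ⊢
        tauto
  have hrun := H968.run_direct_dBits (d := d) (e := e) (ι := j ∘ dwι) (hj.comp dwι_inj) enc
    (l := l) (h := h + 1) (by omega) hl N (m := s7.m) (z := s7.z)
    (K := List.replicate (2 ^ (l - (h + 1))) u) (G := List.replicate (2 ^ h * 2 ^ (l - (h + 1))) u)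
    (L := List.replicate (2 ^ h) u) (by simp) (by simp) (by simp)
    (by
      show s7.z (j .dat) = _
      rw [kk.z (by simp [hj.eq_iff]), hdat])
    (by
      show s7.z (j .a) = _
      rw [kk.z (by simp [hj.eq_iff]), ha]; rfl)
    (by
      show s7.z (j .b) = _
      rw [kk.z (by simp [hj.eq_iff]), hb]; rfl)
    (by
      show s7.z (j .c) = _
      rw [kk.z (by simp [hj.eq_iff]), hc]; rfl)
    (by
      show s7.z (j .e) = _
      rw [kk.z (by simp [hj.eq_iff]), he]; rfl)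
    hK7 q7 hL7
  refine Tri.of_run hrun ⟨?_, ?_⟩
  · simp [dwι]
  · exact (kk'.mono (by simp)).upd (by simp [dwι]) _

end Vale.Agent.P338.R2.H784
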