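import Vale.Agent.P338.R2.H784.Reduce
import Vale.Agent.P338.R2.H898.Round2

/-!
P338: the reduction.
-/

namespace Vale.Agent.P338.R2.H784

open Vale.Agent.P338.R2.H898
open Vale.Agent.P338.R2.H968
open Vale.Agent.P338.R2.H968.CallEnv (mem0 callC)
open Vale.Agent.P338.R2.H525 (dBits)

instance : Fintype TF := ⟨{.fin, .fout, .dat, .n1, .n2, .w, .w2, .el, .nr, .hh, .h2, .clk, .go,
  .q, .x1, .x2, .t, .rK, .rG, .rL, .a, .b, .c, .e}, by
  intro x
  cases x <;> simp⟩

/-- The files of the complete program. -/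
def jj (T : Type) : TF → (T ⊕ RF) ⊕ TF
  | .dat => .inl (.inr .dat)
  | .clk => .inl (.inr .clk)
  | .el => .inl (.inr (.r .el))
  | .hh => .inl (.inr (.r .hh))
  | .nr => .inl (.inr (.r .nr))
  | .h2 => .inl (.inr (.r .h2))
  | x => .inr x

theorem jj_inj (T : Type) : Function.Injective (jj T) := by
  intro x y h
  cases x <;> cases y <;> simp_all [jj]

/-- The files of a round that are used elsewhere. -/
def shared {T : Type} : T ⊕ RF → Prop
  | .inr .dat => True
  | .inr .clk => True
  | .inr (.r .el) => True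
  | .inr (.r .hh) => True
  | .inr (.r .nr) => True
  | .inr (.r .h2) => True
  | _ => False

theorem ne_jj {T : Type} {f : T ⊕ RF} (hf : ¬ shared f) (x : TF) : Sum.inl f ≠ jj T x := by
  intro h
  apply hf
  cases x <;> simp only [jj, Sum.inl.injEq, reduceCtorEq] at h <;> subst h <;> trivial

theorem not_shared_jj {T : Type} {f : T ⊕ RF} {x : TF} (h : Sum.inl f = jj T x) : shared f := by
  by_contra hcon
  exact ne_jj hcon x h

/-- Everything used only inside a round is empty. -/
def RQ (A : MTM) (s : Store (CallMem A) ((A.Tape ⊕ RF) ⊕ TF) (Sy A.Sym)) : Prop :=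
  s.m = mem0 A ∧ ∀ f : A.Tape ⊕ RF, ¬ shared f → s.z (.inl f) = ⟨[], []⟩

open Classical in
theorem roundSpec {A : MTM} (hA : Multiplies A) :
    RoundSpec (.a A.blank) .u (fun b => Sy.l (bitL b)) (jj A.Tape)
      ((roundP (env A (fmap A.Tape) fmap_inj) .u .k).map (Lens.idL _) Sum.inl) (RQ A)
      (fun n => 2 * mulTime A n) (2 * callC A + 35000) := by
  intro l h n X s h4 hl hn hel hhh hnr hdat hclk hR
  obtain ⟨hm, hz⟩ := hR
  obtain ⟨T, hT, hrun⟩ := run_round (d := (.a A.blank : Sy A.Sym)) (u := .u) (mk := .k)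
    (m := s.m) hA (env A (fmap A.Tape) fmap_inj) (fun _ => rfl) rfl
    (by rw [hm]; rfl) (by simp) h4 hl hn X (s.z (.inl (.inr (.r .h2))))
  refine ⟨T, hT, ?_⟩
  have hrun' := hrun.map (L := Lens.idL (CallMem A)) (ι := (Sum.inl : A.Tape ⊕ RF →
    (A.Tape ⊕ RF) ⊕ TF)) Sum.inl_injective (S := s) (by
      unfold Store.pull
      simp only [Lens.idL, Store.mk.injEq, true_and]
      funext f
      rcases f with i | (x | _ | _ | _ | _ | _)
      · rw [hz _ (by simp [shared])]
        simp [st]
      · cases x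
        · rw [show s.z (Sum.inl (Sum.inr (RF.r RR.el))) = s.z (jj A.Tape .el) from rfl, hel]
          simp [st, v0]
        · rw [show s.z (Sum.inl (Sum.inr (RF.r RR.hh))) = s.z (jj A.Tape .hh) from rfl, hhh]
          simp [st, v0]
        · rw [show s.z (Sum.inl (Sum.inr (RF.r RR.nr))) = s.z (jj A.Tape .nr) from rfl, hnr]
          simp [st, v0]
        · simp
        all_goals
          rw [hz _ (by simp [shared])]
          simp [st, v0]
      · rw [show s.z (Sum.inl (Sum.inr RF.dat)) = s.z (jj A.Tape .dat) from rfl, hdat]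
        simp [st, env]
      · rw [show s.z (Sum.inl (Sum.inr RF.clk)) = s.z (jj A.Tape .clk) from rfl, hclk]
        simp [st]
      all_goals
        rw [hz _ (by simp [shared])]
        simp [st])
  refine (Tri.of_run hrun' ?_).cost ?_
  · have hz1 : ∀ f : A.Tape ⊕ RF, (Store.put (Lens.idL (CallMem A)) Sum.inl s
        (st .u s.m (v1 l h n) ⟨[], (dBits l ((h + 1) / 2) X).map
          (env A (fmap A.Tape) fmap_inj).bit⟩ ⟨List.replicate T .u, []⟩
          ⟨[], []⟩ ⟨[], []⟩ ⟨[], []⟩)).z (Sum.inl f) =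
        (st .u s.m (v1 l h n) ⟨[], (dBits l ((h + 1) / 2) X).map
          (env A (fmap A.Tape) fmap_inj).bit⟩ ⟨List.replicate T .u, []⟩
          ⟨[], []⟩ ⟨[], []⟩ ⟨[], []⟩).z f := fun f =>
      Store.put_z_apply Sum.inl_injective _ _ f
    refine ⟨hz1 (.inr .dat), hz1 (.inr (.r .h2)), hz1 (.inr .clk), ?_, hm, ?_⟩
    · intro x e1 e2 e3 e4
      have hgen : ∀ y : TF, (Store.put (Lens.idL (CallMem A)) Sum.inl s
        (st .u s.m (v1 l h n) ⟨[], (dBits l ((h + 1) / 2) X).map
          (env A (fmap A.Tape) fmap_inj).bit⟩ ⟨List.replicate T .u, []⟩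
          ⟨[], []⟩ ⟨[], []⟩ ⟨[], []⟩)).z (Sum.inr y) = s.z (Sum.inr y) := fun y =>
        Store.put_z_of_notMem _ _ (by simp)
      cases x
      case dat => exact absurd rfl e1
      case hh => exact absurd rfl e2
      case h2 => exact absurd rfl e3
      case clk => exact absurd rfl e4
      case el =>
        refine (hz1 (.inr (.r .el))).trans ?_
        rw [hel]
        rfl
      case nr =>
        refine (hz1 (.inr (.r .nr))).trans ?_
        rw [hnr]
        rfl
      all_goals exact hgen _
    · intro f hf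
      refine (hz1 f).trans ?_
      rcases f with i | (x | _ | _ | _ | _ | _)
      · rfl
      · cases x
        case el => exact absurd trivial hf
        case hh => exact absurd trivial hf
        case nr => exact absurd trivial hf
        case h2 => exact absurd trivial hf
        all_goals rfl
      · exact absurd trivial hf
      · exact absurd trivial hf
      all_goals rfl
  · apply Nat.mul_le_mul_left
    omega

/-- **The reduction**: transposition is at most as hard as multiplication. -/
theorem reduction {A : MTM} (hA : Multiplies A) : IneqL 18432 A := by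
  classical
  have := A.finTape
  have iF : Fintype ((A.Tape ⊕ RF) ⊕ TF) := Fintype.ofFinite _
  refine ineq_of_round ⟨(A.Tape ⊕ RF) ⊕ TF, iF, inferInstance, jj A.Tape, RQ A, mem0 A,
    (roundP (env A (fmap A.Tape) fmap_inj) .u .k).map (Lens.idL _) Sum.inl,
    2 * callC A + 35000, jj_inj _, ?_, ?_, roundSpec hA⟩
  · rintro s s' ⟨h1, h2⟩ h3 h4
    exact ⟨h3.trans h1, fun f hf => (h4 _ (ne_jj hf)).trans (h2 f hf)⟩
  · intro s h1 h2
    exact ⟨h1, fun f hf => h2 _ (ne_jj hf)⟩

end Vale.Agent.P338.R2.H784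

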