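import Vale.Agent.P338.R2.H784.Assemble
import Vale.Agent.P338.R2.H778.NR

/-!
P338: the program computing the size of the multiplications meets its specification.
-/

namespace Vale.Agent.P338.R2.H784

open Vale.Agent.P338.R2.H898

set_option linter.unusedSectionVars false

variable {M F α : Type} [DecidableEq F] {d u : α}

/-- The program. -/
def nrp (ρ : ℕ) (j : TF → F) (u : α) : Prog M F α :=
  H778.nrProg 18432 ρ (j .n1) (j .n2) (j .w) (j .w2) (j .nr) (j .q) (j .t) u

theorem nrp_spec (ρ : ℕ) {j : TF → F} (hj : Function.Injective j) :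
    NrSpec d u j (nrp ρ j u : Prog M F α) (NN 18432 ρ) (H778.nrC 18432 ρ) := by
  intro l r s st hr hs hrl hsl h1 h2 hw hw2 hnr hq ht
  have h4 : 2 ^ l * 2 ^ l = 4 ^ l := by
    rw [← mul_pow]
    norm_num
  have h := H778.tri_nr (d := d) (u := u) 18432 ρ (n1 := j .n1) (n2 := j .n2) (w := j .w)
    (w2 := j .w2) (nr := j .nr) (q := j .q) (t := j .t) (by simp [hj.eq_iff]) hr hrl hsl h1 h2 hw
    hw2 (by rw [hnr]; rfl) (by rw [hq]; rfl) (by rw [ht]; rfl)
  rw [h4] at h
  refine h.post ?_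
  rintro s' ⟨q1, q2, q3, q4, q5, q6, q7, k⟩
  refine ⟨q1, k.1, fun f hf => ?_⟩
  by_cases e1 : f = j .n1
  · rw [e1, h1]; exact q2
  by_cases e2 : f = j .n2
  · rw [e2, h2]; exact q3
  by_cases e3 : f = j .w
  · rw [e3, hw]; exact q4
  by_cases e4 : f = j .w2
  · rw [e4, hw2]; exact q5
  by_cases e5 : f = j .q
  · rw [e5, hq]; exact q6
  by_cases e6 : f = j .t
  · rw [e6, ht]; exact q7
  exact k.z (by simp [e1, e2, e3, e4, e5, e6, hf])

end Vale.Agent.P338.R2.H784
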