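import Vale.Agent.P338.R2.H898.Zip

/-!
P338: basic macros on files, with exact Run statements (generic in the file type).
-/

namespace Vale.Agent.P338.R2.H784

open Vale.Agent.P338.R2.H898
open Function (update)

set_option linter.unusedSectionVars false

variable {M F α : Type} [DecidableEq F] {d : α}

/-- One operation on one file. -/
def op (f : F) (o : Op α) : Prog M F α := .prim fun m _ => (m, some (f, o))

/-- Change of the memory. -/
def mem (g : M → (F → Option α) → M) : Prog M F α := .prim fun m r => (g m r, none)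

/-- Nothing. -/
def nop : Prog M F α := .prim fun m _ => (m, none)

/-- Append a symbol (at the end of a file). -/
def put (f : F) (a : α) : Prog M F α := .seq (op f (.write a)) (op f .right)

/-- Empty a file. -/
def clr (f : F) : Prog M F α := .seq (op f .rew) (op f .trunc)

theorem run_op (f : F) (o : Op α) (m : M) (z : F → Zip α) :
    Prog.Run d (op f o) ⟨m, z⟩ 1 ⟨m, update z f (o.app d (z f))⟩ :=
  Prog.Run.prim _ _

theorem run_mem (g : M → (F → Option α) → M) (m : M) (z : F → Zip α) :
    Prog.Run d (mem g) ⟨m, z⟩ 1 ⟨g m (fun f => (z f).peek), z⟩ :=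
  Prog.Run.prim _ _

theorem run_nop (m : M) (z : F → Zip α) : Prog.Run d (nop : Prog M F α) ⟨m, z⟩ 1 ⟨m, z⟩ :=
  Prog.Run.prim _ _

theorem run_rew (f : F) (m : M) (z : F → Zip α) :
    Prog.Run d (op f .rew) ⟨m, z⟩ 1 ⟨m, update z f ⟨[], (z f).full⟩⟩ := by
  have := run_op (d := d) f Op.rew m z
  rcases h : z f with ⟨l, r⟩
  rw [h] at this
  exact this

theorem run_put {f : F} {a : α} {m : M} {z : F → Zip α} {l : List α} (h : z f = ⟨l, []⟩) :
    Prog.Run d (put f a) ⟨m, z⟩ 2 ⟨m, update z f ⟨a :: l, []⟩⟩ := by
  have h1 := run_op (d := d) f (Op.write a) m z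
  have h2 := run_op (d := d) f Op.right m (update z f ((Op.write a).app d (z f)))
  have h3 := h1.seq h2
  rw [h] at h3
  simp only [Op.app, Function.update_self, Function.update_idem] at h3
  exact h3

theorem run_clr (f : F) (m : M) (z : F → Zip α) :
    Prog.Run d (clr f) ⟨m, z⟩ 2 ⟨m, update z f ⟨[], []⟩⟩ := by
  have h1 := run_rew (d := d) f m z
  have h2 := run_op (d := d) f Op.trunc m (update z f ⟨[], (z f).full⟩)
  have h3 := h1.seq h2
  simp only [Op.app, Function.update_self, Function.update_idem] at h3
  exact h3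

theorem run_right {f : F} {m : M} {z : F → Zip α} {l r : List α} {a : α}
    (h : z f = ⟨l, a :: r⟩) :
    Prog.Run d (op f .right) ⟨m, z⟩ 1 ⟨m, update z f ⟨a :: l, r⟩⟩ := by
  have h1 := run_op (d := d) f Op.right m z
  rw [h] at h1
  exact h1

theorem run_right_end {f : F} {m : M} {z : F → Zip α} {l : List α}
    (h : z f = ⟨l, []⟩) :
    Prog.Run d (op f .right) ⟨m, z⟩ 1 ⟨m, update z f ⟨d :: l, []⟩⟩ := by
  have h1 := run_op (d := d) f Op.right m z
  rw [h] at h1
  exact h1

/-- The loop `while f is not at its end do (p; move right on f)`, then rewind `f`. -/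
def scan (f : F) (p : Prog M F α) : Prog M F α :=
  .loop (fun _ r => (r f).isSome) (.seq p (op f .right))

/-- The position `i` in the list `xs`. -/
def at' (xs : List α) (i : ℕ) : Zip α := ⟨(xs.take i).reverse, xs.drop i⟩

theorem at'_zero (xs : List α) : at' xs 0 = ⟨[], xs⟩ := by simp [at']

theorem at'_length (xs : List α) : at' xs xs.length = ⟨xs.reverse, []⟩ := by simp [at']

theorem at'_peek {xs : List α} {i : ℕ} : (at' xs i).peek = xs[i]? := by
  simp [at', Zip.peek]

theorem at'_full (xs : List α) (i : ℕ) : (at' xs i).full = xs := by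
  simp [at', Zip.full]

theorem at'_right {xs : List α} {i : ℕ} (h : i < xs.length) :
    Op.app d .right (at' xs i) = at' xs (i + 1) := by
  have h1 : List.take (i + 1) xs = List.take i xs ++ [xs[i]] := (List.take_append_getElem h).symm
  unfold at'
  rw [List.drop_eq_getElem_cons h, h1, List.reverse_append]
  rfl

/-- Scanning a file: `J i` is the rest of the store after `i` steps. -/
theorem run_scan {f : F} {p : Prog M F α} (xs : List α) (J : ℕ → Store M F α) (t : ℕ → ℕ)
    (h : ∀ i < xs.length, Prog.Run d p ⟨(J i).m, update (J i).z f (at' xs i)⟩ (t i)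
      ⟨(J (i + 1)).m, update (J (i + 1)).z f (at' xs i)⟩) :
    Prog.Run d (scan f p) ⟨(J 0).m, update (J 0).z f ⟨[], xs⟩⟩
      ((∑ i ∈ Finset.range xs.length, (t i + 2)) + 1)
      ⟨(J xs.length).m, update (J xs.length).z f ⟨xs.reverse, []⟩⟩ := by
  have := Prog.Run.loop (d := d) (c := fun _ r => (r f).isSome) (p := .seq p (op f .right))
    xs.length (fun i => ⟨(J i).m, update (J i).z f (at' xs i)⟩) (fun i => t i + 1) ?_ ?_ ?_
  · rw [at'_zero, at'_length] at this
    exact this
  · intro i hi
    simp only [Store.reads, Function.update_self, at'_peek]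
    rw [List.getElem?_eq_getElem hi]
    rfl
  · simp only [Store.reads, Function.update_self, at'_peek]
    simp
  · intro i hi
    refine (h i hi).seq ?_
    have h2 := run_op (d := d) f Op.right (J (i + 1)).m (update (J (i + 1)).z f (at' xs i))
    rw [Function.update_self, Function.update_idem, at'_right hi] at h2
    exact h2

/-- `for` loop over a file. -/
def forEach (f : F) (p : Prog M F α) : Prog M F α := .seq (scan f p) (op f .rew)

theorem run_forEach' {f : F} {p : Prog M F α} (xs : List α) (J : ℕ → Store M F α) (t : ℕ → ℕ)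
    (h : ∀ i < xs.length, Prog.Run d p ⟨(J i).m, update (J i).z f (at' xs i)⟩ (t i)
      ⟨(J (i + 1)).m, update (J (i + 1)).z f (at' xs i)⟩) :
    Prog.Run d (forEach f p) ⟨(J 0).m, update (J 0).z f ⟨[], xs⟩⟩
      ((∑ i ∈ Finset.range xs.length, (t i + 2)) + 2)
      ⟨(J xs.length).m, update (J xs.length).z f ⟨[], xs⟩⟩ := by
  have h1 := (run_scan xs J t h).seq (run_rew f _ _)
  simp only [Function.update_self, Function.update_idem, Zip.full, List.reverse_reverse,
    List.append_nil] at h1
  exact h1

theorem run_forEach {f : F} {p : Prog M F α} (xs : List α) (J : ℕ → Store M F α) (t : ℕ)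
    (h : ∀ i < xs.length, Prog.Run d p ⟨(J i).m, update (J i).z f (at' xs i)⟩ t
      ⟨(J (i + 1)).m, update (J (i + 1)).z f (at' xs i)⟩) :
    Prog.Run d (forEach f p) ⟨(J 0).m, update (J 0).z f ⟨[], xs⟩⟩
      (xs.length * (t + 2) + 2)
      ⟨(J xs.length).m, update (J xs.length).z f ⟨[], xs⟩⟩ := by
  simpa using run_forEach' xs J (fun _ => t) h

end Vale.Agent.P338.R2.H784
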