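import Vale.Agent.P338.R2.H784.Arith

/-!
P338: the comparison of the clock with the height, and the main loop.
-/

namespace Vale.Agent.P338.R2.H784

open Vale.Agent.P338.R2.H898
open Function (update)

set_option linter.unusedSectionVars false

variable {M F α : Type} [DecidableEq F] {d u : α}

theorem at'_peek_isSome {xs : List α} {i : ℕ} : (at' xs i).peek.isSome = decide (i < xs.length) := by
  rw [at'_peek]
  by_cases h : i < xs.length
  · simp [h]
  · simp [h]

/-- Walk in lockstep on `a` (a file with arbitrary contents) and `b` (a ruler). -/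
def lock (a b : F) : Prog M F α :=
  .loop (fun _ r => (r a).isSome && (r b).isSome) (.seq (op a .right) (op b .right))

theorem tri_lock {a b : F} (hab : a ≠ b) {s : Store M F α} {xs : List α} {i j : ℕ}
    (ha : s.z a = ⟨[], xs⟩) (hb : Len u i j (s.z b)) :
    Tri d (lock a b) s (3 * min xs.length j + 1) (fun s' => s'.z a = at' xs (min xs.length j) ∧
      Len u (i + min xs.length j) (j - min xs.length j) (s'.z b) ∧ Keep [a, b] s s') := by
  refine (Tri.loop (d := d) (min xs.length j)
    (fun n s' => s'.z a = at' xs n ∧ Len u (i + n) (j - n) (s'.z b) ∧ Keep [a, b] s s') 2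
    ?_ ?_ ?_ ⟨by rw [at'_zero]; exact ha, by simpa using hb, Keep.refl _ _⟩).cost (by omega)
  · rintro n hn s' ⟨h1, h2, -⟩
    simp only [Store.reads, h1, at'_peek_isSome, h2.peek_isSome]
    simp
    omega
  · rintro s' ⟨h1, h2, -⟩
    simp only [Store.reads, h1, at'_peek_isSome, h2.peek_isSome]
    simp
    omega
  · rintro n hn s1 ⟨h1, h2, h3⟩
    refine Tri.seq (t' := 1) (tri_op a .right s1) ?_
    rintro s2 ⟨h4, k4⟩
    obtain ⟨j', hj'⟩ : ∃ j', j - n = j' + 1 := ⟨j - n - 1, by omega⟩
    rw [hj'] at h2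
    refine (tri_right (k4.len (by simp [hab.symm]) h2)).post ?_
    rintro s3 ⟨h5, k5⟩
    refine ⟨?_, ?_, h3.trans ((k4.mono (by simp)).trans (k5.mono (by simp)))⟩
    · rw [k5.z (by simp [hab]), h4, h1, at'_right (by omega)]
    · have e : j - (n + 1) = j' := by omega
      rw [e, ← Nat.add_assoc]
      exact h5

/-- Compare the clock `c` with the product of the lengths of `h` and `a`: at the end the clock is
at its end iff it is not longer than the product. -/
def cmp (h a c : F) : Prog M F α :=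
  .seq (op c .rew) (.loop (fun _ r => (r h).isSome && (r c).isSome)
    (.seq (lock a c) (.seq (op a .rew) (op h .right))))

theorem tri_cmp {h a c : F} (hha : h ≠ a) (hhc : h ≠ c) (hac : a ≠ c) {s : Store M F α}
    {xs : List α} {n T : ℕ} (hxs : 0 < xs.length) (hh : Len u 0 n (s.z h))
    (ha : s.z a = ⟨[], xs⟩) (hc : Len u T 0 (s.z c)) :
    Tri d (cmp h a c) s (3 * T + 4 * n + 2) (fun s' => s'.z a = ⟨[], xs⟩ ∧
      (∃ i, Len u i (n - i) (s'.z h) ∧ i ≤ n) ∧
      Len u (min T (n * xs.length)) (T - n * xs.length) (s'.z c) ∧ Keep [h, a, c] s s') := by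
  set D := xs.length with hD
  refine (Tri.seq (t' := 3 * T + 4 * n + 1) (tri_rew hc) ?_).cost (by omega)
  rintro s1 ⟨h1, k1⟩
  rw [Nat.add_zero] at h1
  -- number of iterations
  obtain ⟨N, hN1, hN2, hN3⟩ : ∃ N, N ≤ n ∧ (∀ i < N, i * D < T) ∧ (N = n ∨ T ≤ N * D) := by
    by_cases hT : T ≤ n * D
    · have hex : ∃ i, T ≤ i * D := ⟨n, hT⟩
      classical
      refine ⟨Nat.find hex, Nat.find_min' hex hT, fun i hi => ?_, Or.inr (Nat.find_spec hex)⟩
      have := Nat.find_min hex hi
      omega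
    · refine ⟨n, le_rfl, fun i hi => ?_, Or.inl rfl⟩
      have : i * D ≤ n * D := Nat.mul_le_mul_right _ hi.le
      omega
  have hloop := Tri.loop' (d := d) (c := fun _ r => (r h).isSome && (r c).isSome)
    (p := .seq (lock a c) (.seq (op a .rew) (op h .right))) N
    (fun i s' => Len u i (n - i) (s'.z h) ∧ s'.z a = ⟨[], xs⟩ ∧
      Len u (min T (i * D)) (T - i * D) (s'.z c) ∧ Keep [h, a, c] s s')
    (fun i => 3 * min D (T - i * D) + 3) ?_ ?_ ?_ (s := s1)
    ⟨k1.len (by simp [hhc]) (by simpa using hh), by rw [k1.z (by simp [hac])]; exact ha,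
      by simpa using h1, k1.mono (by simp)⟩
  · refine hloop.mono ?_ ?_
    · have key : ∀ k ≤ N, (∑ i ∈ Finset.range k, (3 * min D (T - i * D) + 3 + 1)) ≤
          3 * min T (k * D) + 4 * k := by
        intro k hk
        induction k with
        | zero => simp
        | succ k ih =>
          rw [Finset.sum_range_succ]
          have h2 := ih (by omega)
          have h3 := hN2 k (by omega)
          have h4 : (k + 1) * D = k * D + D := by ring
          omega
      have := key N le_rfl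
      omega
    · rintro s' ⟨h2, h3, h4, h5⟩
      refine ⟨h3, ⟨N, h2, hN1⟩, ?_, h5⟩
      rcases hN3 with rfl | hN3
      · exact h4
      · have h6 : N * D ≤ n * D := Nat.mul_le_mul_right _ hN1
        have e1 : min T (n * D) = min T (N * D) := by omega
        have e2 : T - n * D = T - N * D := by omega
        rw [e1, e2]
        exact h4
  · rintro i hi s' ⟨h2, h3, h4, h5⟩
    have := hN2 i hi
    simp only [Store.reads, h2.peek_isSome, h4.peek_isSome]
    simp
    omega
  · rintro s' ⟨h2, h3, h4, h5⟩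
    simp only [Store.reads, h2.peek_isSome, h4.peek_isSome]
    simp
    omega
  · rintro i hi s2 ⟨h2, h3, h4, h5⟩
    have hi' := hN2 i hi
    refine (Tri.seq (t' := 2) (tri_lock hac h3 h4) ?_).cost (by omega)
    rintro s3 ⟨h6, h7, k3⟩
    refine Tri.seq (t' := 1) (tri_op a .rew s3) ?_
    rintro s4 ⟨h8, k4⟩
    obtain ⟨j', hj'⟩ : ∃ j', n - i = j' + 1 := ⟨n - i - 1, by omega⟩
    rw [hj'] at h2
    have h9 : Len u i (j' + 1) (s4.z h) :=
      k4.len (by simp [hha]) (k3.len (by simp [hha, hhc]) h2)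
    refine (tri_right h9).post ?_
    rintro s5 ⟨h10, k5⟩
    refine ⟨?_, ?_, ?_, h5.trans ((k3.mono (by simp)).trans ((k4.mono (by simp)).trans
      (k5.mono (by simp))))⟩
    · have e : n - (i + 1) = j' := by omega
      rw [e]
      exact h10
    · rw [k5.z (by simp [hha.symm]), h8, h6]
      have h11 := at'_full xs (min D (T - i * D))
      unfold Zip.full at h11
      unfold Op.app
      rcases hz : at' xs (min D (T - i * D)) with ⟨l', r'⟩
      rw [hz] at h11
      simp only at h11 ⊢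
      rw [h11]
    · have h12 : Len u (min T (i * D) + min D (T - i * D)) (T - i * D - min D (T - i * D))
          (s5.z c) := k5.len (by simp [hhc.symm]) (k4.len (by simp [hac.symm]) h7)
      have e0 : (i + 1) * D = i * D + D := by ring
      have e1 : min T ((i + 1) * D) = min T (i * D) + min D (T - i * D) := by omega
      have e2 : T - (i + 1) * D = T - i * D - min D (T - i * D) := by omega
      rw [e1, e2]
      exact h12

theorem Len.left {i j : ℕ} {z : Zip α} (h : Len u (i + 1) j z) :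
    Len u i (j + 1) (Op.app d .left z) := by
  subst h
  simp [Op.app, Len, List.replicate_succ]

theorem Len.trunc {i j : ℕ} {z : Zip α} (h : Len u i j z) :
    Len u i 0 (Op.app d .trunc z) := by
  subst h
  simp [Op.app, Len]

/-- Go to the end of a ruler. -/
def toEnd (f : F) : Prog M F α := .loop (fun _ r => (r f).isSome) (op f .right)

theorem tri_toEnd {f : F} {s : Store M F α} {i j : ℕ} (h : Len u i j (s.z f)) :
    Tri d (toEnd f) s (2 * j + 1) (fun s' => Len u (i + j) 0 (s'.z f) ∧ Keep [f] s s') := by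
  refine (Tri.loop (d := d) j
    (fun n s' => Len u (i + n) (j - n) (s'.z f) ∧ Keep [f] s s') 1
    ?_ ?_ ?_ ⟨by simpa using h, Keep.refl _ _⟩).mono (by omega) ?_
  · rintro n hn s' ⟨h1, -⟩
    rw [Store.reads, h1.peek_isSome]
    simpa using hn
  · rintro s' ⟨h1, -⟩
    rw [Store.reads, h1.peek_isSome]
    simp
  · rintro n hn s1 ⟨h1, h2⟩
    obtain ⟨j', hj'⟩ : ∃ j', j - n = j' + 1 := ⟨j - n - 1, by omega⟩
    rw [hj'] at h1
    refine (tri_right h1).post ?_
    rintro s2 ⟨h3, k3⟩
    refine ⟨?_, h2.trans k3⟩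
    have e : j - (n + 1) = j' := by omega
    rw [e, ← Nat.add_assoc]
    exact h3
  · rintro s' ⟨h1, h2⟩
    rw [Nat.sub_self] at h1
    exact ⟨h1, h2⟩

/-- Shorten a ruler by one. -/
def decU (f : F) : Prog M F α :=
  .seq (toEnd f) (.seq (op f .left) (.seq (op f .trunc) (op f .rew)))

theorem tri_decU {f : F} {s : Store M F α} {n : ℕ} (h : Len u 0 (n + 1) (s.z f)) :
    Tri d (decU f) s (2 * n + 6) (fun s' => Len u 0 n (s'.z f) ∧ Keep [f] s s') := by
  refine (Tri.seq (t' := 3) (tri_toEnd h) ?_).cost (by omega)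
  rintro s1 ⟨h1, k1⟩
  have e : 0 + (n + 1) = n + 1 := by omega
  rw [e] at h1
  refine Tri.seq (t' := 2) (tri_op f .left s1) ?_
  rintro s2 ⟨h2, k2⟩
  refine Tri.seq (t' := 1) (tri_op f .trunc s2) ?_
  rintro s3 ⟨h3, k3⟩
  have h4 : Len u n 0 (s3.z f) := by
    rw [h3, h2]
    exact h1.left.trunc
  refine (tri_rew h4).post ?_
  rintro s4 ⟨h5, k5⟩
  exact ⟨by simpa using h5, k1.trans (k2.trans (k3.trans k5))⟩

/-- The number encoded by a truth value. -/
def b01 (p : Prop) [Decidable p] : ℕ := if p then 1 else 0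

/-- `go := (4 ≤ |f|)`, where `go` is empty before; `f` is rewound. -/
def chk4 (f go : F) (u : α) : Prog M F α :=
  .seq (op f .rew) (.seq (rep 3 (.ite (fun _ r => (r f).isSome) (op f .right) nop))
    (.seq (.ite (fun _ r => (r f).isSome) (op go (.write u)) nop) (op f .rew)))

theorem tri_chk4 {f go : F} (hfg : f ≠ go) {s : Store M F α} {i j : ℕ} (h : Len u i j (s.z f))
    (hg : Len u 0 0 (s.z go)) :
    Tri d (chk4 f go u) s 11 (fun s' => Len u 0 (i + j) (s'.z f) ∧
      Len u 0 (b01 (4 ≤ i + j)) (s'.z go) ∧ Keep [f, go] s s') := by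
  refine (Tri.seq (t' := 10) (tri_rew h) ?_)
  rintro s1 ⟨h1, k1⟩
  have hrep := Tri.rep (d := d) 3 (.ite (fun _ r => (r f).isSome) (op f .right) nop)
    (fun n s' => Len u (min (i + j) n) (i + j - n) (s'.z f) ∧ Keep [f] s s') 2 (s := s1) ?_
    ⟨by simpa using h1, k1⟩
  · refine (Tri.seq (t' := 3) hrep ?_)
    rintro s2 ⟨h2, k2⟩
    have hg2 : Len u 0 0 (s2.z go) := k2.len (by simp [hfg.symm]) hg
    refine (Tri.seq (t := 2) (t' := 1) (Q := fun s' => s'.z f = s2.z f ∧
      Len u 0 (b01 (4 ≤ i + j)) (s'.z go) ∧ Keep [f, go] s s') (Tri.ite (t := 1) ?_ ?_) ?_)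
    · intro hc
      rw [Store.reads, h2.peek_isSome] at hc
      simp at hc
      refine (tri_op go (.write u) s2).post ?_
      rintro s3 ⟨h3, k3⟩
      refine ⟨k3.z (by simp [hfg]), ?_, (k2.mono (by simp)).trans (k3.mono (by simp))⟩
      rw [h3, hg2.eq_nil]
      have e : b01 (4 ≤ i + j) = 1 := by
        unfold b01
        rw [if_pos (by omega)]
      rw [e]
      rfl
    · intro hc
      rw [Store.reads, h2.peek_isSome] at hc
      simp at hc
      refine (Tri.of_run (run_nop s2.m s2.z) ?_)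
      have e : b01 (4 ≤ i + j) = 0 := by
        unfold b01
        rw [if_neg (by omega)]
      rw [e]
      exact ⟨rfl, hg2, k2.mono (by simp)⟩
    · rintro s3 ⟨h3, h4, k4⟩
      rw [← h3] at h2
      refine (tri_rew h2).post ?_
      rintro s4 ⟨h5, k5⟩
      refine ⟨?_, k5.len (by simp [hfg.symm]) h4, k4.trans (k5.mono (by simp))⟩
      have e : min (i + j) 3 + (i + j - 3) = i + j := by omega
      rw [e] at h5
      exact h5
  · rintro n hn s2 ⟨h2, k2⟩
    refine Tri.ite (t := 1) ?_ ?_
    · intro hc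
      rw [Store.reads, h2.peek_isSome] at hc
      simp at hc
      obtain ⟨j', hj'⟩ : ∃ j', i + j - n = j' + 1 := ⟨i + j - n - 1, by omega⟩
      rw [hj'] at h2
      refine (tri_right h2).post ?_
      rintro s3 ⟨h3, k3⟩
      refine ⟨?_, k2.trans k3⟩
      have e1 : min (i + j) (n + 1) = min (i + j) n + 1 := by omega
      have e2 : i + j - (n + 1) = j' := by omega
      rw [e1, e2]
      exact h3
    · intro hc
      rw [Store.reads, h2.peek_isSome] at hc
      simp at hc
      refine (Tri.of_run (run_nop s2.m s2.z) ⟨?_, k2⟩)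
      have e1 : min (i + j) (n + 1) = min (i + j) n := by omega
      have e2 : i + j - (n + 1) = i + j - n := by omega
      rw [e1, e2]
      exact h2

/-- The end of a round: compare the clock with the product of the new height and the size of the
data, set the flag `go`, update the height, empty the clock. -/
def endRound (hh h2 dat clk go : F) (u : α) : Prog M F α :=
  .seq (cmp h2 dat clk) (.seq (clr go)
    (.seq (.ite (fun _ r => (r clk).isSome) nop (chk4 h2 go u))
      (.seq (op h2 .rew) (.seq (clr clk) (cpU h2 hh u)))))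

theorem tri_endRound {hh h2 dat clk go : F} (hnd : [hh, h2, dat, clk, go].Nodup)
    {s : Store M F α} {xs : List α} {n T : ℕ} (hxs : 0 < xs.length) (hh2 : Len u 0 n (s.z h2))
    (hdat : s.z dat = ⟨[], xs⟩) (hclk : Len u T 0 (s.z clk)) :
    Tri d (endRound hh h2 dat clk go u) s (3 * T + 8 * n + 24) (fun s' =>
      s'.z dat = ⟨[], xs⟩ ∧ Len u 0 n (s'.z h2) ∧ Len u 0 n (s'.z hh) ∧ Len u 0 0 (s'.z clk) ∧
      Len u 0 (b01 (T ≤ n * xs.length ∧ 4 ≤ n)) (s'.z go) ∧ Keep [hh, h2, dat, clk, go] s s') := by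
  simp only [List.nodup_cons, List.mem_cons, List.not_mem_nil, not_or, or_false, not_false_eq_true,
    List.nodup_nil, and_true] at hnd
  obtain ⟨⟨n1, n2, n3, n4⟩, ⟨n5, n6, n7⟩, ⟨n8, n9⟩, n10⟩ := hnd
  refine (Tri.seq (t' := 4 * n + 22) (tri_cmp n5 n6 n8 hxs hh2 hdat hclk) ?_).cost (by omega)
  rintro s1 ⟨h1, ⟨i, h2', hi⟩, h3, k1⟩
  refine (Tri.seq (t' := 4 * n + 20) (tri_clr go s1) ?_).cost (by omega)
  rintro s2 ⟨h4, k2⟩
  have h2'' : Len u i (n - i) (s2.z h2) := k2.len (by simp [n7]) h2'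
  have h3'' : Len u (min T (n * xs.length)) (T - n * xs.length) (s2.z clk) :=
    k2.len (by simp [n10]) h3
  refine (Tri.seq (t := 12) (t' := 4 * n + 8) (Q := fun s' =>
      (∃ i', Len u i' (n - i') (s'.z h2) ∧ i' ≤ n) ∧
      Len u 0 (b01 (T ≤ n * xs.length ∧ 4 ≤ n)) (s'.z go) ∧ Keep [h2, go] s2 s')
      (Tri.ite (t := 11) ?_ ?_) ?_).cost (by omega)
  · intro hc
    rw [Store.reads, h3''.peek_isSome] at hc
    simp at hc
    refine (Tri.of_run (run_nop s2.m s2.z) ⟨⟨i, h2'', hi⟩, ?_, Keep.refl _ _⟩).cost (by omega)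
    have e : b01 (T ≤ n * xs.length ∧ 4 ≤ n) = 0 := by
      unfold b01
      rw [if_neg (by omega)]
    rw [e]
    exact h4
  · intro hc
    rw [Store.reads, h3''.peek_isSome] at hc
    simp at hc
    refine (tri_chk4 n7 h2'' (by exact h4)).post ?_
    rintro s3 ⟨h5, h6, k3⟩
    have e0 : i + (n - i) = n := by omega
    rw [e0] at h5 h6
    refine ⟨⟨0, by simpa using h5, by omega⟩, ?_, k3⟩
    have e : b01 (T ≤ n * xs.length ∧ 4 ≤ n) = b01 (4 ≤ n) := by
      unfold b01
      by_cases h : 4 ≤ n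
      · rw [if_pos ⟨by omega, h⟩, if_pos h]
      · rw [if_neg (fun h' => h h'.2), if_neg h]
    rw [e]
    exact h6
  · rintro s3 ⟨⟨i', h5, hi'⟩, h6, k3⟩
    refine (Tri.seq (t' := 4 * n + 7) (tri_rew h5) ?_).cost (by omega)
    rintro s4 ⟨h7, k4⟩
    have e0 : i' + (n - i') = n := by omega
    rw [e0] at h7
    refine (Tri.seq (t' := 4 * n + 5) (tri_clr clk s4) ?_).cost (by omega)
    rintro s5 ⟨h8, k5⟩
    refine (tri_cpU (Ne.symm n1) (k5.len (by simp [n6]) h7)).post ?_
    rintro s6 ⟨h9, h10, k6⟩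
    refine ⟨?_, h10, h9, ?_, ?_, ?_⟩
    · rw [k6.z (by simp [Ne.symm n5, Ne.symm n2]), k5.z (by simp [n8]),
        k4.z (by simp [Ne.symm n5]), k3.z (by simp [Ne.symm n5, n9]), k2.z (by simp [n9])]
      exact h1
    · exact k6.len (by simp [Ne.symm n6, Ne.symm n3]) (by exact h8)
    · exact k6.len (by simp [Ne.symm n7, Ne.symm n4]) (k5.len (by simp [Ne.symm n10])
        (k4.len (by simp [Ne.symm n7]) h6))
    · exact (k1.mono (by simp)).trans ((k2.mono (by simp)).trans ((k3.mono (by simp)).trans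
        ((k4.mono (by simp)).trans ((k5.mono (by simp)).trans (k6.mono (by simp))))))

end Vale.Agent.P338.R2.H784
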