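import Vale.Agent.P338.R2.H784.Main

/-!
P338: the main loop.
-/

namespace Vale.Agent.P338.R2.H784

open Vale.Agent.P338.R2.H898
open Function (update)

set_option linter.unusedSectionVars false

variable {M F α : Type} [DecidableEq F] {d u : α}

/-- Total cost of the main loop starting at the height `h`; `T2` bounds the multiplication time
of a round, `N` is the size of the multiplications, `D` the size of the data. -/
inductive Tot (T2 N D c1 c2 : ℕ) : ℕ → ℕ → Prop
  | small {h : ℕ} : h < 4 → Tot T2 N D c1 c2 h (c2 * (h + 1) * D)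
  | stop {h T : ℕ} : 4 ≤ h → T ≤ T2 → (h + 1) / 2 * D < T →
      Tot T2 N D c1 c2 h (c1 * (T + N + D) + c2 * ((h + 1) / 2 + 1) * D)
  | cont {h T t : ℕ} : 4 ≤ h → T ≤ T2 → T ≤ (h + 1) / 2 * D → Tot T2 N D c1 c2 ((h + 1) / 2) t →
      Tot T2 N D c1 c2 h (c1 * (T + N + D) + t)

/-- The state at height `h`. -/
structure Inv (hh dat clk go : F) (Dt : ℕ → List α) (Rest : Store M F α → Prop) (u : α)
    (h g : ℕ) (s : Store M F α) : Prop where
  hh : Len u 0 h (s.z hh)
  dat : s.z dat = ⟨[], Dt h⟩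
  clk : Len u 0 0 (s.z clk)
  go : Len u 0 g (s.z go)
  rest : Rest s

/-- The main loop: rounds (`rd`) followed by direct passes (`dr`). -/
def roundLoop (hh h2 dat clk go : F) (u : α) (rd : Prog M F α) : Prog M F α :=
  .loop (fun _ r => (r go).isSome) (.seq rd (endRound hh h2 dat clk go u))

def directLoop (hh : F) (dr : Prog M F α) : Prog M F α :=
  .loop (fun _ r => (r hh).isSome) (.seq dr (decU hh))

theorem tri_directLoop {hh dat clk go : F} (hnd : [hh, dat, clk, go].Nodup) {dr : Prog M F α}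
    {Dt : ℕ → List α} {Rest : Store M F α → Prop} {l c : ℕ}
    (hRest : ∀ s s', Rest s → Keep [hh] s s' → Rest s')
    (hdr : ∀ h s, h < l → Inv hh dat clk go Dt Rest u (h + 1) 0 s →
      Tri d dr s c (fun s' => Len u 0 (h + 1) (s'.z hh) ∧ s'.z dat = ⟨[], Dt h⟩ ∧
        Len u 0 0 (s'.z clk) ∧ Len u 0 0 (s'.z go) ∧ Rest s'))
    {h : ℕ} (hl : h ≤ l) {s : Store M F α} (hs : Inv hh dat clk go Dt Rest u h 0 s) :
    Tri d (directLoop hh dr) s (h * (c + 2 * l + 7) + 1) (Inv hh dat clk go Dt Rest u 0 0) := by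
  simp only [List.nodup_cons, List.mem_cons, List.not_mem_nil, not_or, or_false, not_false_eq_true,
    List.nodup_nil, and_true] at hnd
  obtain ⟨⟨n1, n2, n3⟩, ⟨n4, n5⟩, n6⟩ := hnd
  refine (Tri.loop (d := d) h (fun i s' => Inv hh dat clk go Dt Rest u (h - i) 0 s')
    (c + 2 * l + 6) ?_ ?_ ?_ (by simpa using hs)).mono (by ring_nf; omega) ?_
  · rintro n hn s' h1
    rw [Store.reads, h1.hh.peek_isSome]
    simpa using hn
  · rintro s' h1
    rw [Store.reads, h1.hh.peek_isSome]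
    simp
  · rintro n hn s1 h1
    obtain ⟨j, hj⟩ : ∃ j, h - n = j + 1 := ⟨h - n - 1, by omega⟩
    rw [hj] at h1
    have e : h - (n + 1) = j := by omega
    rw [e]
    refine (Tri.seq (t' := 2 * l + 6) (hdr j s1 (by omega) h1) ?_).cost (by omega)
    rintro s2 ⟨h2, h3, h4, h5, h6⟩
    refine (tri_decU h2).mono (by omega) ?_
    rintro s3 ⟨h7, k7⟩
    refine ⟨h7, ?_, k7.len (by simp [Ne.symm n2]) h4, k7.len (by simp [Ne.symm n3]) h5,
      hRest s2 s3 h6 k7⟩
    rw [k7.z (by simp [Ne.symm n1])]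
    exact h3
  · rintro s' h1
    simpa using h1

theorem tri_main {hh h2 dat clk go : F} (hnd : [hh, h2, dat, clk, go].Nodup)
    {rd dr : Prog M F α} {Dt : ℕ → List α} {Rest : Store M F α → Prop} {l c1 c2 T2 N D : ℕ}
    (hD : ∀ h, (Dt h).length = D) (hD1 : l ≤ D) (hD2 : 0 < D)
    (hRest : ∀ s s', Rest s → Keep [hh, h2, dat, clk, go] s s' → Rest s')
    (hrd : ∀ h s, 4 ≤ h → h ≤ l → Inv hh dat clk go Dt Rest u h 1 s → ∃ T ≤ T2,
      Tri d rd s (c1 * (T + N + D)) (fun s' => s'.z dat = ⟨[], Dt ((h + 1) / 2)⟩ ∧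
        Len u 0 ((h + 1) / 2) (s'.z h2) ∧ Len u T 0 (s'.z clk) ∧ Rest s'))
    (hdr : ∀ h s, h < l → Inv hh dat clk go Dt Rest u (h + 1) 0 s →
      Tri d dr s (c2 * D) (fun s' => Len u 0 (h + 1) (s'.z hh) ∧ s'.z dat = ⟨[], Dt h⟩ ∧
        Len u 0 0 (s'.z clk) ∧ Len u 0 0 (s'.z go) ∧ Rest s'))
    {h : ℕ} (hl : h ≤ l) {s : Store M F α}
    (hs : Inv hh dat clk go Dt Rest u h (b01 (4 ≤ h)) s) :
    ∃ t, Tot T2 N D (c1 + 36) (c2 + 12) h t ∧
      Tri d (.seq (roundLoop hh h2 dat clk go u rd) (directLoop hh dr)) s t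
        (Inv hh dat clk go Dt Rest u 0 0) := by
  have hnd' := hnd
  simp only [List.nodup_cons, List.mem_cons, List.not_mem_nil, not_or, or_false, not_false_eq_true,
    List.nodup_nil, and_true] at hnd'
  obtain ⟨⟨n1, n2, n3, n4⟩, ⟨n5, n6, n7⟩, ⟨n8, n9⟩, n10⟩ := hnd'
  have hnd2 : [hh, dat, clk, go].Nodup := by
    simp [n2, n3, n4, n8, n9, n10]
  -- the direct loop
  have hdl : ∀ h' ≤ l, ∀ s', Inv hh dat clk go Dt Rest u h' 0 s' →
      Tri d (directLoop hh dr) s' ((c2 + 12) * (h' + 1) * D - 1)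
        (Inv hh dat clk go Dt Rest u 0 0) := by
    intro h' hl' s' hs'
    refine (tri_directLoop hnd2 (fun s s' h1 h2 => hRest s s' h1 (h2.mono (by simp))) hdr hl'
      hs').cost ?_
    have e1 : h' * (c2 * D + 2 * l + 7) + 1 + 1 ≤ (c2 + 12) * (h' + 1) * D := by
      have e2 : h' * (c2 * D + 2 * l + 7) ≤ h' * (c2 * D + 9 * D) := by
        apply Nat.mul_le_mul_left
        omega
      nlinarith [Nat.zero_le (c2 * D), Nat.zero_le (h' * D)]
    omega
  have hloop0 : ∀ h' ≤ l, ∀ s', Inv hh dat clk go Dt Rest u h' 0 s' →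
      Tri d (.seq (roundLoop hh h2 dat clk go u rd) (directLoop hh dr)) s'
        ((c2 + 12) * (h' + 1) * D) (Inv hh dat clk go Dt Rest u 0 0) := by
    intro h' hl' s' hs'
    have e1 : 0 < (c2 + 12) * (h' + 1) * D := by positivity
    refine (Tri.runSeq (Prog.Run.loopF ?_) (hdl h' hl' s' hs')).cost (by omega)
    rw [Store.reads, hs'.go.peek_isSome]
    rfl
  induction h using Nat.strong_induction_on generalizing s with
  | _ h ih =>
    by_cases h4 : 4 ≤ h
    · have e : b01 (4 ≤ h) = 1 := by unfold b01; rw [if_pos h4]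
      rw [e] at hs
      obtain ⟨T, hT, s1, hr1, hd1, hh1, hc1, hrest1⟩ := hrd h s h4 hl hs
      obtain ⟨s2, hr2, hd2, hh2, hh2', hc2, hg2, hk2⟩ := tri_endRound (d := d) hnd
        (by rw [hD]; exact hD2) hh1 hd1 hc1
      rw [hD] at hg2
      have hrest2 := hRest s1 s2 hrest1 hk2
      have hbody := hr1.seq hr2
      have hgo : (s.reads go).isSome = true := by
        rw [Store.reads, hs.go.peek_isSome]
        rfl
      have hcost : c1 * (T + N + D) + (3 * T + 8 * ((h + 1) / 2) + 24) + 1 ≤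
          (c1 + 36) * (T + N + D) := by
        have : (h + 1) / 2 ≤ D := by omega
        nlinarith
      by_cases hTD : T ≤ (h + 1) / 2 * D
      · -- another round or small height
        have hb : b01 (T ≤ (h + 1) / 2 * D ∧ 4 ≤ (h + 1) / 2) = b01 (4 ≤ (h + 1) / 2) := by
          unfold b01
          by_cases h5 : 4 ≤ (h + 1) / 2
          · rw [if_pos ⟨hTD, h5⟩, if_pos h5]
          · rw [if_neg (fun h' => h5 h'.2), if_neg h5]
        rw [hb] at hg2
        obtain ⟨t, ht1, ht2⟩ := ih ((h + 1) / 2) (by omega) (by omega) ⟨hh2', hd2, hc2, hg2, hrest2⟩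
        refine ⟨_, Tot.cont h4 hT hTD ht1, ?_⟩
        obtain ⟨s3, hr3, hq3⟩ := ht2
        obtain ⟨v, hv, he⟩ := hr3
        cases he with
        | seq he1 he2 =>
          rename_i t3 t4 s4
          refine ⟨s3, ?_, hq3⟩
          refine ((Prog.Run.loopT hgo hbody ⟨_, le_rfl, he1⟩).seq ⟨_, le_rfl, he2⟩).mono ?_
          omega
      · refine ⟨_, Tot.stop h4 hT (by omega), ?_⟩
        have hb : b01 (T ≤ (h + 1) / 2 * D ∧ 4 ≤ (h + 1) / 2) = 0 := by
          unfold b01
          rw [if_neg (fun h' => hTD h'.1)]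
        rw [hb] at hg2
        obtain ⟨s3, hr3, hq3⟩ := hloop0 ((h + 1) / 2) (by omega) s2 ⟨hh2', hd2, hc2, hg2, hrest2⟩
        obtain ⟨v, hv, he⟩ := hr3
        cases he with
        | seq he1 he2 =>
          rename_i t3 t4 s4
          refine ⟨s3, ?_, hq3⟩
          refine ((Prog.Run.loopT hgo hbody ⟨_, le_rfl, he1⟩).seq ⟨_, le_rfl, he2⟩).mono ?_
          omega
    · refine ⟨_, Tot.small (by omega), ?_⟩
      have e : b01 (4 ≤ h) = 0 := by unfold b01; rw [if_neg h4]
      rw [e] at hs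
      exact hloop0 h hl s hs

end Vale.Agent.P338.R2.H784
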