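import Vale.Agent.P338.R2.H784.Main2

/-!
P338: computation of the rulers of a pass.
-/

namespace Vale.Agent.P338.R2.H784

open Vale.Agent.P338.R2.H898
open Function (update)

set_option linter.unusedSectionVars false

variable {M F α : Type} [DecidableEq F] {d u : α}

/-- Walk in lockstep on two rulers. -/
theorem tri_lockU {a b : F} (hab : a ≠ b) {s : Store M F α} {i j i' j' : ℕ}
    (ha : Len u i j (s.z a)) (hb : Len u i' j' (s.z b)) :
    Tri d (lock a b) s (3 * min j j' + 1) (fun s' => Len u (i + min j j') (j - min j j') (s'.z a) ∧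
      Len u (i' + min j j') (j' - min j j') (s'.z b) ∧ Keep [a, b] s s') := by
  refine (Tri.loop (d := d) (min j j')
    (fun n s' => Len u (i + n) (j - n) (s'.z a) ∧ Len u (i' + n) (j' - n) (s'.z b) ∧
      Keep [a, b] s s') 2
    ?_ ?_ ?_ ⟨by simpa using ha, by simpa using hb, Keep.refl _ _⟩).cost (by omega)
  · rintro n hn s' ⟨h1, h2, -⟩
    simp only [Store.reads, h1.peek_isSome, h2.peek_isSome]
    simp
    omega
  · rintro s' ⟨h1, h2, -⟩
    simp only [Store.reads, h1.peek_isSome, h2.peek_isSome]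
    simp
    omega
  · rintro n hn s1 ⟨h1, h2, h3⟩
    obtain ⟨k, hk⟩ : ∃ k, j - n = k + 1 := ⟨j - n - 1, by omega⟩
    obtain ⟨k', hk'⟩ : ∃ k', j' - n = k' + 1 := ⟨j' - n - 1, by omega⟩
    rw [hk] at h1
    rw [hk'] at h2
    refine Tri.seq (t' := 1) (tri_right h1) ?_
    rintro s2 ⟨h4, k4⟩
    refine (tri_right (k4.len (by simp [hab.symm]) h2)).post ?_
    rintro s3 ⟨h5, k5⟩
    refine ⟨?_, ?_, h3.trans ((k4.mono (by simp)).trans (k5.mono (by simp)))⟩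
    · have e : j - (n + 1) = k := by omega
      rw [e, ← Nat.add_assoc]
      exact k5.len (by simp [hab]) h4
    · have e : j' - (n + 1) = k' := by omega
      rw [e, ← Nat.add_assoc]
      exact h5

/-- `c := |a| - |b|` (for `|b| ≤ |a|`). -/
def diffU (a b c : F) (u : α) : Prog M F α :=
  .seq (clr c) (.seq (lock a b) (.seq (mvU a c u) (.seq (op a .rew) (.seq (op b .rew)
    (op c .rew)))))

theorem tri_diffU {a b c : F} (hab : a ≠ b) (hac : a ≠ c) (hbc : b ≠ c) {s : Store M F α}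
    {m n : ℕ} (hnm : n ≤ m) (ha : Len u 0 m (s.z a)) (hb : Len u 0 n (s.z b)) :
    Tri d (diffU a b c u) s (4 * m + 7) (fun s' => Len u 0 (m - n) (s'.z c) ∧
      Len u 0 m (s'.z a) ∧ Len u 0 n (s'.z b) ∧ Keep [a, b, c] s s') := by
  refine (Tri.seq (t' := 4 * m + 5) (tri_clr c s) ?_).cost (by omega)
  rintro s1 ⟨h1, k1⟩
  have ha1 : Len u 0 m (s1.z a) := k1.len (by simp [hac]) ha
  have hb1 : Len u 0 n (s1.z b) := k1.len (by simp [hbc]) hb
  have hmin : min m n = n := by omega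
  refine (Tri.seq (t' := 4 * (m - n) + 4) (tri_lockU hab ha1 hb1) ?_).cost (by omega)
  rintro s2 ⟨h2, h3, k2⟩
  rw [hmin] at h2 h3
  have hc2 : Len u 0 0 (s2.z c) := k2.len (by simp [hac.symm, hbc.symm]) (by exact h1)
  refine Tri.seq (t' := 3) (tri_mvU hac h2 hc2) ?_
  rintro s3 ⟨h4, h5, k3⟩
  have hb3 : Len u (0 + n) (n - n) (s3.z b) := k3.len (by simp [hab.symm, hbc]) h3
  refine Tri.seq (t' := 2) (tri_rew h4) ?_
  rintro s4 ⟨h6, k4⟩
  refine Tri.seq (t' := 1) (tri_rew (k4.len (by simp [hab.symm]) hb3)) ?_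
  rintro s5 ⟨h7, k5⟩
  refine (tri_rew (k5.len (by simp [hbc.symm]) (k4.len (by simp [hac.symm]) h5))).post ?_
  rintro s6 ⟨h8, k6⟩
  refine ⟨by simpa using h8, ?_, ?_, ?_⟩
  · have e : 0 + n + (m - n) + 0 = m := by omega
    rw [e] at h6
    exact k6.len (by simp [hac]) (k5.len (by simp [hab]) h6)
  · have e : 0 + n + (n - n) = n := by omega
    rw [e] at h7
    exact k6.len (by simp [hbc]) h7
  · exact (k1.mono (by simp)).trans ((k2.mono (by simp)).trans ((k3.mono (by simp)).trans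
      ((k4.mono (by simp)).trans ((k5.mono (by simp)).trans (k6.mono (by simp))))))

/-- Lengthen a ruler by one. -/
def incU (f : F) (u : α) : Prog M F α := .seq (toEnd f) (.seq (put f u) (op f .rew))

theorem tri_incU {f : F} {s : Store M F α} {n : ℕ} (h : Len u 0 n (s.z f)) :
    Tri d (incU f u) s (2 * n + 4) (fun s' => Len u 0 (n + 1) (s'.z f) ∧ Keep [f] s s') := by
  refine (Tri.seq (t' := 3) (tri_toEnd h) ?_)
  rintro s1 ⟨h1, k1⟩
  refine Tri.seq (t' := 1) (tri_put h1) ?_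
  rintro s2 ⟨h2, k2⟩
  refine (tri_rew h2).post ?_
  rintro s3 ⟨h3, k3⟩
  refine ⟨?_, k1.trans (k2.trans k3)⟩
  have e : 0 + n + 1 + 0 = n + 1 := by omega
  rw [e] at h3
  exact h3

/-- The files of the preparation. -/
structure PF (F : Type) where
  /-- exponents: `l - h`, `s`, `h - s` -/
  ed : F
  es : F
  eh : F
  /-- `2 ^ (l - h)`, `2 ^ s`, `2 ^ (h - s)`, product of the first and the third -/
  K : F
  P : F
  L : F
  G : F
  /-- `s + 1`, `2 ^ (s + 1)` -/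
  s1 : F
  P2 : F
  /-- `h - s - s + 1`, and its power -/
  te : F
  tau : F
  /-- scratch -/
  t : F

/-- The list of the files. -/
def PF.list (p : PF F) : List F :=
  [p.ed, p.es, p.eh, p.K, p.P, p.L, p.G, p.s1, p.P2, p.te, p.tau, p.t]

/-- All rulers from the exponents. -/
def prepBase (p : PF F) (u : α) : Prog M F α :=
  .seq (clr p.t) (.seq (pow2 p.ed p.K p.t u) (.seq (pow2 p.es p.P p.t u)
    (.seq (pow2 p.eh p.L p.t u) (.seq (mulU p.L p.K p.G u) (.seq (cpU p.es p.s1 u)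
    (.seq (incU p.s1 u) (.seq (pow2 p.s1 p.P2 p.t u) (.seq (diffU p.eh p.es p.te u)
    (.seq (incU p.te u) (pow2 p.te p.tau p.t u))))))))))

theorem tri_prepBase {p : PF F} (hnd : p.list.Nodup) {s : Store M F α} {a b c : ℕ} (hbc : b ≤ c)
    (ha : Len u 0 a (s.z p.ed)) (hb : Len u 0 b (s.z p.es)) (hc : Len u 0 c (s.z p.eh)) :
    Tri d (prepBase p u) s (200 * (2 ^ a * 2 ^ c) + 200 * 2 ^ b) (fun s' =>
      Len u 0 a (s'.z p.ed) ∧ Len u 0 b (s'.z p.es) ∧ Len u 0 c (s'.z p.eh) ∧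
      Len u 0 (2 ^ a) (s'.z p.K) ∧ Len u 0 (2 ^ b) (s'.z p.P) ∧ Len u 0 (2 ^ c) (s'.z p.L) ∧
      Len u 0 (2 ^ c * 2 ^ a) (s'.z p.G) ∧ Len u 0 (b + 1) (s'.z p.s1) ∧
      Len u 0 (2 ^ (b + 1)) (s'.z p.P2) ∧ Len u 0 (2 ^ (c - b + 1)) (s'.z p.tau) ∧
      s'.z p.t = ⟨[], []⟩ ∧ Keep p.list s s') := by
  have hnd' := hnd
  unfold PF.list at hnd'
  simp only [List.nodup_cons, List.mem_cons, List.not_mem_nil, not_or, or_false, not_false_eq_true,
    List.nodup_nil, and_true] at hnd'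
  obtain ⟨⟨a1, a2, a3, a4, a5, a6, a7, a8, a9, a10, a11⟩, ⟨b2, b3, b4, b5, b6, b7, b8, b9, b10,
    b11⟩, ⟨c3, c4, c5, c6, c7, c8, c9, c10, c11⟩, ⟨d4, d5, d6, d7, d8, d9, d10, d11⟩,
    ⟨e5, e6, e7, e8, e9, e10, e11⟩, ⟨f6, f7, f8, f9, f10, f11⟩, ⟨g7, g8, g9, g10, g11⟩,
    ⟨i8, i9, i10, i11⟩, ⟨j9, j10, j11⟩, ⟨k10, k11⟩, l11⟩ := hnd'
  have hA : 1 ≤ 2 ^ a := Nat.one_le_two_pow
  have hB : 1 ≤ 2 ^ b := Nat.one_le_two_pow
  have hC : 1 ≤ 2 ^ c := Nat.one_le_two_pow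
  have hA' : a < 2 ^ a := Nat.lt_two_pow_self
  have hB' : b < 2 ^ b := Nat.lt_two_pow_self
  have hC' : c < 2 ^ c := Nat.lt_two_pow_self
  have hAC1 : 2 ^ a ≤ 2 ^ a * 2 ^ c := Nat.le_mul_of_pos_right _ hC
  have hAC2 : 2 ^ c ≤ 2 ^ a * 2 ^ c := Nat.le_mul_of_pos_left _ hA
  have hB2 : 2 ^ (b + 1) = 2 * 2 ^ b := by ring
  have hT : 2 ^ (c - b + 1) ≤ 2 * 2 ^ c := by
    have : 2 ^ (c - b + 1) ≤ 2 ^ (c + 1) := Nat.pow_le_pow_right (by norm_num) (by omega)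
    rw [pow_succ] at this
    omega
  have hcomm : 2 ^ c * 2 ^ a = 2 ^ a * 2 ^ c := mul_comm _ _
  refine (Tri.seq (t' := 199 * (2 ^ a * 2 ^ c) + 199 * 2 ^ b) (tri_clr p.t s) ?_).cost (by omega)
  rintro s1 ⟨q1, k1⟩
  have ha1 := k1.len (by simp [a11]) ha
  have hb1 := k1.len (by simp [b11]) hb
  have hc1 := k1.len (by simp [c11]) hc
  refine (Tri.seq (t' := 170 * (2 ^ a * 2 ^ c) + 199 * 2 ^ b)
    (tri_pow2 a3 a11 d11 ha1 (by exact q1)) ?_).cost (by omega)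
  rintro s2 ⟨q2, ha2, ht2, k2⟩
  have hb2 := k2.len (by simp [b3, b11, Ne.symm a1]) hb1
  have hc2 := k2.len (by simp [c3, c11, Ne.symm a2]) hc1
  refine (Tri.seq (t' := 170 * (2 ^ a * 2 ^ c) + 170 * 2 ^ b)
    (tri_pow2 b4 b11 e11 hb2 ht2) ?_).cost (by omega)
  rintro s3 ⟨q3, hb3, ht3, k3⟩
  have ha3 := k3.len (by simp [a4, a11, a1]) ha2
  have hc3 := k3.len (by simp [c4, c11, Ne.symm b2]) hc2
  have hK3 := k3.len (by simp [d4, d11, Ne.symm b3]) q2
  refine (Tri.seq (t' := 140 * (2 ^ a * 2 ^ c) + 170 * 2 ^ b)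
    (tri_pow2 c5 c11 f11 hc3 ht3) ?_).cost (by omega)
  rintro s4 ⟨q4, hc4, ht4, k4⟩
  have ha4 := k4.len (by simp [a5, a11, a2]) ha3
  have hb4 := k4.len (by simp [b5, b11, b2]) hb3
  have hK4 := k4.len (by simp [d5, d11, Ne.symm c3]) hK3
  have hP4 := k4.len (by simp [e5, e11, Ne.symm c4]) q3
  refine (Tri.seq (t' := 120 * (2 ^ a * 2 ^ c) + 170 * 2 ^ b)
    (tri_mulU (Ne.symm d5) f6 d6 q4 hK4) ?_).cost (by rw [hcomm]; omega)
  rintro s5 ⟨q5, hL5, hK5, k5⟩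
  have ha5 := k5.len (by simp [a5, a3, a6]) ha4
  have hb5 := k5.len (by simp [b5, b3, b6]) hb4
  have hc5 := k5.len (by simp [c5, c3, c6]) hc4
  have hP5 := k5.len (by simp [e5, Ne.symm d4, e6]) hP4
  have ht5 := k5.len (by simp [Ne.symm f11, Ne.symm d11, Ne.symm g11]) ht4
  refine (Tri.seq (t' := 120 * (2 ^ a * 2 ^ c) + 150 * 2 ^ b)
    (tri_cpU b7 hb5) ?_).cost (by omega)
  rintro s6 ⟨q6, hb6, k6⟩
  have ha6 := k6.len (by simp [a1, a7]) ha5
  have hc6 := k6.len (by simp [Ne.symm b2, c7]) hc5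
  have hP6 := k6.len (by simp [Ne.symm b4, e7]) hP5
  have hK6 := k6.len (by simp [Ne.symm b3, d7]) hK5
  have hL6 := k6.len (by simp [Ne.symm b5, f7]) hL5
  have hG6 := k6.len (by simp [Ne.symm b6, g7]) q5
  have ht6 := k6.len (by simp [Ne.symm b11, Ne.symm i11]) ht5
  refine (Tri.seq (t' := 120 * (2 ^ a * 2 ^ c) + 140 * 2 ^ b)
    (tri_incU q6) ?_).cost (by omega)
  rintro s7 ⟨q7, k7⟩
  have ha7 := k7.len (by simp [a7]) ha6
  have hb7 := k7.len (by simp [b7]) hb6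
  have hc7 := k7.len (by simp [c7]) hc6
  have hP7 := k7.len (by simp [e7]) hP6
  have hK7 := k7.len (by simp [d7]) hK6
  have hL7 := k7.len (by simp [f7]) hL6
  have hG7 := k7.len (by simp [g7]) hG6
  have ht7 := k7.len (by simp [Ne.symm i11]) ht6
  refine (Tri.seq (t' := 120 * (2 ^ a * 2 ^ c) + 100 * 2 ^ b)
    (tri_pow2 i8 i11 j11 q7 ht7) ?_).cost (by omega)
  rintro s8 ⟨q8, hs8, ht8, k8⟩
  have ha8 := k8.len (by simp [a8, a11, a7]) ha7
  have hb8 := k8.len (by simp [b8, b11, b7]) hb7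
  have hc8 := k8.len (by simp [c8, c11, c7]) hc7
  have hP8 := k8.len (by simp [e8, e11, e7]) hP7
  have hK8 := k8.len (by simp [d8, d11, d7]) hK7
  have hL8 := k8.len (by simp [f8, f11, f7]) hL7
  have hG8 := k8.len (by simp [g8, g11, g7]) hG7
  refine (Tri.seq (t' := 100 * (2 ^ a * 2 ^ c) + 100 * 2 ^ b)
    (tri_diffU (Ne.symm b2) c9 b9 hbc hc8 hb8) ?_).cost (by omega)
  rintro s9 ⟨q9, hc9, hb9, k9⟩
  have ha9 := k9.len (by simp [a2, a1, a9]) ha8
  have hP9 := k9.len (by simp [Ne.symm c4, Ne.symm b4, e9]) hP8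
  have hK9 := k9.len (by simp [Ne.symm c3, Ne.symm b3, d9]) hK8
  have hL9 := k9.len (by simp [Ne.symm c5, Ne.symm b5, f9]) hL8
  have hG9 := k9.len (by simp [Ne.symm c6, Ne.symm b6, g9]) hG8
  have hs9 := k9.len (by simp [Ne.symm c7, Ne.symm b7, i9]) hs8
  have hP29 := k9.len (by simp [Ne.symm c8, Ne.symm b8, j9]) q8
  have ht9 := k9.len (by simp [Ne.symm c11, Ne.symm b11, Ne.symm k11]) ht8
  refine (Tri.seq (t' := 80 * (2 ^ a * 2 ^ c) + 100 * 2 ^ b)
    (tri_incU q9) ?_).cost (by omega)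
  rintro s10 ⟨q10, k10'⟩
  have ht10 := k10'.len (by simp [Ne.symm k11]) ht9
  refine (tri_pow2 k10 k11 l11 q10 ht10).mono (by omega) ?_
  rintro s11 ⟨q11, hte, ht11, k11'⟩
  refine ⟨?_, ?_, ?_, ?_, ?_, ?_, ?_, ?_, ?_, q11, ht11.eq_nil, ?_⟩
  · exact k11'.len (by simp [a10, a11, a9]) (k10'.len (by simp [a9]) ha9)
  · exact k11'.len (by simp [b10, b11, b9]) (k10'.len (by simp [b9]) hb9)
  · exact k11'.len (by simp [c10, c11, c9]) (k10'.len (by simp [c9]) hc9)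
  · exact k11'.len (by simp [d10, d11, d9]) (k10'.len (by simp [d9]) hK9)
  · exact k11'.len (by simp [e10, e11, e9]) (k10'.len (by simp [e9]) hP9)
  · exact k11'.len (by simp [f10, f11, f9]) (k10'.len (by simp [f9]) hL9)
  · exact k11'.len (by simp [g10, g11, g9]) (k10'.len (by simp [g9]) hG9)
  · exact k11'.len (by simp [i10, i11, i9]) (k10'.len (by simp [i9]) hs9)
  · exact k11'.len (by simp [j10, j11, j9]) (k10'.len (by simp [j9]) hP29)
  · exact (k1.mono (by simp [PF.list])).trans ((k2.mono (by simp [PF.list])).trans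
      ((k3.mono (by simp [PF.list])).trans ((k4.mono (by simp [PF.list])).trans
      ((k5.mono (by simp [PF.list])).trans ((k6.mono (by simp [PF.list])).trans
      ((k7.mono (by simp [PF.list])).trans ((k8.mono (by simp [PF.list])).trans
      ((k9.mono (by simp [PF.list])).trans ((k10'.mono (by simp [PF.list])).trans
      (k11'.mono (by simp [PF.list])))))))))))

end Vale.Agent.P338.R2.H784
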