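import Vale.Agent.P338.R2.H784.NrInst
import Vale.Agent.P338.R2.H784.Alpha
import Vale.Agent.P338.R2.H207.Bridge

/-!
P338: the reduction, given the program of a round.
-/

namespace Vale.Agent.P338.R2.H784

open Vale.Agent.P338.R2.H898
open Vale.Agent.P338.R2.H968

/-- **The reduction**, given the program of a round. -/
theorem ineq_of_round {A : MTM}
    (h : ∃ (F : Type) (_ : Fintype F) (_ : DecidableEq F) (j : TF → F)
      (RR : Store (CallMem A) F (Sy A.Sym) → Prop) (m0 : CallMem A)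
      (rd : Prog (CallMem A) F (Sy A.Sym)) (c1 : ℕ),
      Function.Injective j ∧
      (∀ s s' : Store (CallMem A) F (Sy A.Sym), RR s → s'.m = s.m →
        (∀ f, (∀ x, f ≠ j x) → s'.z f = s.z f) → RR s') ∧
      (∀ s : Store (CallMem A) F (Sy A.Sym), s.m = m0 →
        (∀ f, (∀ x, f ≠ j x) → s.z f = ⟨[], []⟩) → RR s) ∧
      RoundSpec (.a A.blank) .u (fun b => Sy.l (bitL b)) j rd RR (fun n => 2 * mulTime A n) c1) :
    IneqL 18432 A := by
  classical
  obtain ⟨F, iF, dF, j, RR, m0, rd, c1, hj, hRR, hRR0, hround⟩ := h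
  have := A.finSym
  apply H207.ineq_of_bound
  intro ρ hρ
  exact bound_of_specs (enc := Sy.l) (dl := Sy.dl) hρ (fun _ => rfl) m0 hj hRR hRR0 hround
    (nrp_spec ρ hj)

end Vale.Agent.P338.R2.H784
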