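import Vale.Agent.P338.R2.H784.DirectW
import Vale.Agent.P338.R2.H207.ParseAll
import Vale.Agent.P338.R2.H207.Unpad
import Vale.Agent.P338.R2.H898.Machine

/-!
P338: the complete program for the transposition.
-/

namespace Vale.Agent.P338.R2.H784

open Vale.Agent.P338.R2.H898
open Vale.Agent.P338.R2.H525 (dBits)
open Vale.Agent.P338.R2.H207 (extM)
open Function (update)

set_option linter.unusedSectionVars false

/-- The files of the complete program (besides those used inside a round only). -/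
inductive TF
  | fin
  | fout
  | dat
  | n1
  | n2
  | w
  | w2
  | el
  | nr
  | hh
  | h2
  | clk
  | go
  | q
  | x1
  | x2
  | t
  | rK
  | rG
  | rL
  | a
  | b
  | c
  | e
  deriving DecidableEq

/-- The files of the direct pass. -/
def jDW : DW → TF
  | .dat => .dat
  | .hh => .hh
  | .el => .el
  | .x1 => .x1
  | .x2 => .x2
  | .t => .t
  | .rK => .rK
  | .rG => .rG
  | .rL => .rL
  | .a => .a
  | .b => .b
  | .c => .c
  | .e => .e

theorem jDW_inj : Function.Injective jDW := by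
  intro x y h
  cases x <;> cases y <;> simp_all [jDW]

/-- The files of the input phase. -/
def jPF : H207.PF → TF
  | .fin => .fin
  | .dat => .dat
  | .n1 => .n1
  | .n2 => .n2
  | .w => .w
  | .w2 => .w2
  | .el => .el

theorem jPF_inj : Function.Injective jPF := by
  intro x y h
  cases x <;> cases y <;> simp_all [jPF]

/-- The files of the output phase. -/
def jUF : H207.UF → TF
  | .arr => .dat
  | .out => .fout
  | .q => .w
  | .a => .n1
  | .b => .n2

theorem jUF_inj : Function.Injective jUF := by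
  intro x y h
  cases x <;> cases y <;> simp_all [jUF]

variable {M F α : Type} [DecidableEq F] {d u : α}

/-- Specification of a round. -/
def RoundSpec (d u : α) (bit : Bool → α) (j : TF → F) (rd : Prog M F α)
    (RR : Store M F α → Prop) (T2 : ℕ → ℕ) (c1 : ℕ) : Prop :=
  ∀ (l h n : ℕ) (X : ℕ → ℕ → Bool) (s : Store M F α), 4 ≤ h → h ≤ l → 576 * 4 ^ l ≤ n →
    Len u 0 l (s.z (j .el)) → Len u 0 h (s.z (j .hh)) → Len u 0 n (s.z (j .nr)) →
    s.z (j .dat) = ⟨[], (dBits l h X).map bit⟩ → Len u 0 0 (s.z (j .clk)) → RR s →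
    ∃ T ≤ T2 n, Tri d rd s (c1 * (T + n + 4 ^ l)) (fun s' =>
      s'.z (j .dat) = ⟨[], (dBits l ((h + 1) / 2) X).map bit⟩ ∧
      Len u 0 ((h + 1) / 2) (s'.z (j .h2)) ∧ Len u T 0 (s'.z (j .clk)) ∧
      (∀ x, x ≠ .dat → x ≠ .hh → x ≠ .h2 → x ≠ .clk → s'.z (j x) = s.z (j x)) ∧ RR s')

/-- Specification of the computation of the size of the multiplications. -/
def NrSpec (d u : α) (j : TF → F) (p : Prog M F α) (NN : ℕ → ℕ → ℕ → ℕ) (c : ℕ) : Prop :=
  ∀ (l r s : ℕ) (st : Store M F α), 1 ≤ r → 1 ≤ s → r ≤ 2 ^ l → s ≤ 2 ^ l →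
    Len u 0 r (st.z (j .n1)) → Len u 0 s (st.z (j .n2)) → Len u 0 (2 ^ l) (st.z (j .w)) →
    Len u 0 (2 ^ l) (st.z (j .w2)) → st.z (j .nr) = ⟨[], []⟩ → st.z (j .q) = ⟨[], []⟩ →
    st.z (j .t) = ⟨[], []⟩ →
    Tri d p st (c * 4 ^ l) (fun s' => Len u 0 (NN l r s) (s'.z (j .nr)) ∧
      s'.m = st.m ∧ ∀ f, f ≠ j .nr → s'.z f = st.z f)

/-- What is preserved by the main loop. -/
structure Rst (j : TF → F) (RR : Store M F α → Prop) (u : α) (l n r s : ℕ)
    (st : Store M F α) : Prop where
  el : Len u 0 l (st.z (j .el))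
  nr : Len u 0 n (st.z (j .nr))
  w : Len u 0 (2 ^ l) (st.z (j .w))
  n1 : Len u 0 r (st.z (j .n1))
  n2 : Len u 0 s (st.z (j .n2))
  fout : st.z (j .fout) = ⟨[], []⟩
  a : st.z (j .a) = ⟨[], []⟩
  b : st.z (j .b) = ⟨[], []⟩
  c : st.z (j .c) = ⟨[], []⟩
  e : st.z (j .e) = ⟨[], []⟩
  rr : RR st

variable {j : TF → F} {RR : Store M F α → Prop} {l n r s : ℕ}

theorem Rst.keep (hj : Function.Injective j)
    (hRR : ∀ s s' : Store M F α, RR s → s'.m = s.m → (∀ f, (∀ x, f ≠ j x) → s'.z f = s.z f) →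
      RR s')
    {st st' : Store M F α} (h : Rst j RR u l n r s st)
    (hk : Keep [j .hh, j .h2, j .dat, j .clk, j .go, j .x1, j .x2, j .t, j .rK, j .rG, j .rL]
      st st') : Rst j RR u l n r s st' where
  el := hk.len (by simp [hj.eq_iff]) h.el
  nr := hk.len (by simp [hj.eq_iff]) h.nr
  w := hk.len (by simp [hj.eq_iff]) h.w
  n1 := hk.len (by simp [hj.eq_iff]) h.n1
  n2 := hk.len (by simp [hj.eq_iff]) h.n2
  fout := by rw [hk.z (by simp [hj.eq_iff])]; exact h.fout
  a := by rw [hk.z (by simp [hj.eq_iff])]; exact h.a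
  b := by rw [hk.z (by simp [hj.eq_iff])]; exact h.b
  c := by rw [hk.z (by simp [hj.eq_iff])]; exact h.c
  e := by rw [hk.z (by simp [hj.eq_iff])]; exact h.e
  rr := hRR st st' h.rr hk.1 fun f hf => hk.z (by simp [hf])

/-- The complete program. -/
def topProg [DecidableEq α] (j : TF → F) (enc : Letter → α) (u : α) (rd nrp : Prog M F α) :
    Prog M F α :=
  .seq ((H207.parse enc u).map (Lens.idL M) (j ∘ jPF)) (.seq nrp
    (.seq (cpU (j .el) (j .hh) u) (.seq (chk4 (j .hh) (j .go) u)
    (.seq (.seq (roundLoop (j .hh) (j .h2) (j .dat) (j .clk) (j .go) u rd)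
      (directLoop (j .hh) (directW (j ∘ jDW) u (enc .hash))))
    ((H207.unpad (enc .hash)).map (Lens.idL M) (j ∘ jUF))))))

theorem length_dBits (l h : ℕ) (X : ℕ → ℕ → Bool) : (dBits l h X).length = 4 ^ l := by
  unfold H525.dBits
  rw [List.length_flatMap]
  simp only [List.length_map, List.length_range, List.map_const', List.sum_replicate, smul_eq_mul]
  rw [← mul_pow]
  norm_num

/-- The initial store. -/
def ini (j : TF → F) (enc : Letter → α) (w : List Letter) (m0 : M) : Store M F α :=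
  ⟨m0, fun f => if f = j .fin then ⟨(w.map enc).reverse, []⟩ else ⟨[], []⟩⟩

/-- The main loop of the complete program. -/
theorem tri_topMain {bit : Bool → α} {rd : Prog M F α} {T2 : ℕ → ℕ} {c1 : ℕ} {e : α}
    (hj : Function.Injective j)
    (hRR : ∀ s s' : Store M F α, RR s → s'.m = s.m → (∀ f, (∀ x, f ≠ j x) → s'.z f = s.z f) →
      RR s')
    (hround : RoundSpec d u bit j rd RR T2 c1) (hn : 576 * 4 ^ l ≤ n) (X : ℕ → ℕ → Bool)
    {st : Store M F α} (hst : Rst j RR u l n r s st)
    (hdat : st.z (j .dat) = ⟨[], (dBits l l X).map bit⟩)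
    (hhh : Len u 0 l (st.z (j .hh))) (hclk : Len u 0 0 (st.z (j .clk)))
    (hgo : Len u 0 (b01 (4 ≤ l)) (st.z (j .go))) :
    ∃ t, Tot (T2 n) n (4 ^ l) (c1 + 36) (120 + 12) l t ∧
      Tri d (.seq (roundLoop (j .hh) (j .h2) (j .dat) (j .clk) (j .go) u rd)
        (directLoop (j .hh) (directW (j ∘ jDW) u e))) st t
        (Inv (j .hh) (j .dat) (j .clk) (j .go) (fun h => (dBits l h X).map bit)
          (Rst j RR u l n r s) u 0 0) := by
  have hl2 : l ≤ 4 ^ l := (Nat.lt_pow_self (by norm_num)).le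
  refine tri_main (d := d) (u := u) (hh := j .hh) (h2 := j .h2) (dat := j .dat) (clk := j .clk)
    (go := j .go) ?_ (D := 4 ^ l) (l := l) ?_ hl2 (by positivity) ?_ ?_ ?_ le_rfl
    ⟨hhh, hdat, hclk, hgo, hst⟩
  · simp [hj.eq_iff]
  · intro h
    rw [List.length_map, length_dBits]
  · intro s1 s2 h1 h2
    exact h1.keep hj hRR (h2.mono (by simp))
  · intro h s1 h4 hl hI
    obtain ⟨T, hT, htri⟩ := hround l h n X s1 h4 hl hn hI.rest.el hI.hh hI.rest.nr hI.dat hI.clk
      hI.rest.rr
    refine ⟨T, hT, htri.post ?_⟩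
    rintro s2 ⟨q1, q2, q3, q4, q5⟩
    refine ⟨q1, q2, q3, ?_⟩
    have hr1 := hI.rest
    refine ⟨?_, ?_, ?_, ?_, ?_, ?_, ?_, ?_, ?_, ?_, q5⟩
    · rw [q4 _ (by decide) (by decide) (by decide) (by decide)]; exact hr1.el
    · rw [q4 _ (by decide) (by decide) (by decide) (by decide)]; exact hr1.nr
    · rw [q4 _ (by decide) (by decide) (by decide) (by decide)]; exact hr1.w
    · rw [q4 _ (by decide) (by decide) (by decide) (by decide)]; exact hr1.n1
    · rw [q4 _ (by decide) (by decide) (by decide) (by decide)]; exact hr1.n2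
    · rw [q4 _ (by decide) (by decide) (by decide) (by decide)]; exact hr1.fout
    · rw [q4 _ (by decide) (by decide) (by decide) (by decide)]; exact hr1.a
    · rw [q4 _ (by decide) (by decide) (by decide) (by decide)]; exact hr1.b
    · rw [q4 _ (by decide) (by decide) (by decide) (by decide)]; exact hr1.c
    · rw [q4 _ (by decide) (by decide) (by decide) (by decide)]; exact hr1.e
  · intro h s1 hl hI
    have hd := tri_directW (d := d) (u := u) (j := j ∘ jDW) (hj.comp jDW_inj) (e := e) bit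
      (l := l) (h := h) (by omega) X (s := s1) hI.rest.el hI.hh hI.dat hI.rest.a hI.rest.b
      hI.rest.c hI.rest.e
    refine hd.post ?_
    rintro s2 ⟨q1, k⟩
    simp only [Function.comp, jDW] at q1 k
    refine ⟨k.len (by simp [hj.eq_iff]) hI.hh, q1, k.len (by simp [hj.eq_iff]) hI.clk,
      k.len (by simp [hj.eq_iff]) hI.go, hI.rest.keep hj hRR (k.mono ?_)⟩
    intro f hf
    simp only [List.mem_cons, List.not_mem_nil, or_false] at hf ⊢
    tauto

/-- The complete program transposes. -/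
theorem run_top [DecidableEq α] {rd nrp : Prog M F α} {T2 : ℕ → ℕ} {c1 cn : ℕ}
    {enc : Letter → α} {NN : ℕ → ℕ → ℕ → ℕ} (henc : Function.Injective enc)
    (hj : Function.Injective j)
    (hRR : ∀ s s' : Store M F α, RR s → s'.m = s.m → (∀ f, (∀ x, f ≠ j x) → s'.z f = s.z f) →
      RR s')
    {m0 : M} (hRR0 : ∀ s : Store M F α, s.m = m0 → (∀ f, (∀ x, f ≠ j x) → s.z f = ⟨[], []⟩) →
      RR s)
    (hround : RoundSpec d u (fun b => enc (bitL b)) j rd RR T2 c1)
    (hnr : NrSpec d u j nrp NN cn) (hNN : ∀ l r s, 576 * 4 ^ l ≤ NN l r s)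
    {r s : ℕ} (hr : 1 ≤ r) (hs : 1 ≤ s) (N : Fin r → Fin s → Bool) {l : ℕ}
    (hl : l = Nat.clog 2 (max r s)) :
    ∃ t s', Tot (T2 (NN l r s)) (NN l r s) (4 ^ l) (c1 + 36) (120 + 12) l t ∧
      Prog.Run d (topProg j enc u rd nrp) (ini j enc (matWord N) m0) (t + (cn + 140) * 4 ^ l) s' ∧
      (s'.z (j .fout)).full = (matWord fun a b => N b a).map enc := by
  have hle : max r s ≤ 2 ^ l := by
    rw [hl]
    exact Nat.le_pow_clog (by norm_num) _
  have hrl : r ≤ 2 ^ l := (le_max_left _ _).trans hle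
  have hsl : s ≤ 2 ^ l := (le_max_right _ _).trans hle
  have hl2 : l < 4 ^ l := Nat.lt_pow_self (by norm_num)
  -- the input phase
  have p1 := (H207.run_parse (d := d) m0 enc henc u hr N l hl).map (M := M) (L := Lens.idL M)
    (hj.comp jPF_inj) (S := ini j enc (matWord N) m0) (by
      unfold Store.pull ini
      congr 1
      funext f
      cases f <;> simp [jPF, H207.pst, hj.eq_iff])
  set S1 : Store M F α := (ini j enc (matWord N) m0).put (Lens.idL M) (j ∘ jPF)
    ⟨m0, H207.pst ⟨[], []⟩ ⟨[], (H525.dBits l l (extM N)).map fun b => enc (bitL b)⟩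
        ⟨[], List.replicate r u⟩ ⟨[], List.replicate s u⟩ ⟨[], List.replicate (2 ^ l) u⟩
        ⟨[], List.replicate (2 ^ l) u⟩ ⟨[], List.replicate l u⟩⟩ with hS1
  have z1 : ∀ x, S1.z (j (jPF x)) = H207.pst ⟨[], []⟩
        ⟨[], (H525.dBits l l (extM N)).map fun b => enc (bitL b)⟩
        ⟨[], List.replicate r u⟩ ⟨[], List.replicate s u⟩ ⟨[], List.replicate (2 ^ l) u⟩
        ⟨[], List.replicate (2 ^ l) u⟩ ⟨[], List.replicate l u⟩ x := fun x =>
    Store.put_z_apply (hj.comp jPF_inj) _ _ x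
  have z1' : ∀ f, (∀ x, j (jPF x) ≠ f) → S1.z f = ⟨[], []⟩ := by
    intro f hf
    rw [hS1, Store.put_z_of_notMem (ι := j ∘ jPF) _ _ hf]
    unfold ini
    have : f ≠ j .fin := fun h => hf .fin h.symm
    simp [this]
  have z1'' : ∀ x, (∀ y, jPF y ≠ x) → S1.z (j x) = ⟨[], []⟩ := by
    intro x hx
    exact z1' _ fun y hy => hx y (hj hy)
  -- the size of the multiplications
  obtain ⟨S2, p2, q2, m2, k2⟩ := hnr l r s S1 hr hs hrl hsl (z1 .n1) (z1 .n2) (z1 .w) (z1 .w2)
    (z1'' .nr (by decide)) (z1'' .q (by decide)) (z1'' .t (by decide))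
  have k2' : ∀ x, x ≠ .nr → S2.z (j x) = S1.z (j x) := fun x hx =>
    k2 _ fun h => hx (hj h)
  -- the loop variable
  obtain ⟨S3, p3, q3, e3, k3⟩ := tri_cpU (d := d) (u := u) (a := j .el) (b := j .hh)
    (fun h => by simpa using hj h) (s := S2) (n := l) (by
      rw [k2' .el (by decide)]
      exact z1 .el)
  obtain ⟨S4, p4, q4, g4, k4⟩ := tri_chk4 (d := d) (u := u) (f := j .hh) (go := j .go)
    (fun h => by simpa using hj h) (s := S3) q3 (by
      rw [k3.z (by simp [hj.eq_iff]), k2' .go (by decide)]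
      exact z1'' .go (by decide))
  rw [Nat.zero_add] at q4 g4
  have hz4 : ∀ x, x ≠ .nr → x ≠ .hh → x ≠ .go → x ≠ .el → S4.z (j x) = S1.z (j x) := by
    intro x h1 h2 h3 h4
    rw [k4.z (by simp [hj.eq_iff, h2, h3]), k3.z (by simp [hj.eq_iff, h2, h4]), k2' x h1]
  have hst4 : Rst j RR u l (NN l r s) r s S4 := by
    refine ⟨?_, ?_, ?_, ?_, ?_, ?_, ?_, ?_, ?_, ?_, ?_⟩
    · exact k4.len (by simp [hj.eq_iff]) e3
    · exact k4.len (by simp [hj.eq_iff]) (k3.len (by simp [hj.eq_iff]) q2)
    · rw [hz4 _ (by decide) (by decide) (by decide) (by decide)]; exact z1 .w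
    · rw [hz4 _ (by decide) (by decide) (by decide) (by decide)]; exact z1 .n1
    · rw [hz4 _ (by decide) (by decide) (by decide) (by decide)]; exact z1 .n2
    · rw [hz4 _ (by decide) (by decide) (by decide) (by decide)]; exact z1'' .fout (by decide)
    · rw [hz4 _ (by decide) (by decide) (by decide) (by decide)]; exact z1'' .a (by decide)
    · rw [hz4 _ (by decide) (by decide) (by decide) (by decide)]; exact z1'' .b (by decide)
    · rw [hz4 _ (by decide) (by decide) (by decide) (by decide)]; exact z1'' .c (by decide)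
    · rw [hz4 _ (by decide) (by decide) (by decide) (by decide)]; exact z1'' .e (by decide)
    · apply hRR0
      · rw [k4.1, k3.1, m2]
        rfl
      intro f hf
      rw [k4.z (by simp [hf]), k3.z (by simp [hf]), k2 f (hf _)]
      exact z1' f fun x hx => hf _ hx.symm
  -- the main loop
  obtain ⟨t, ht, S5, p5, q5⟩ := tri_topMain (d := d) (e := enc .hash) hj hRR hround
    (hNN l r s) (extM N) hst4
    (by rw [hz4 _ (by decide) (by decide) (by decide) (by decide)]; exact z1 .dat) q4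
    (by rw [hz4 _ (by decide) (by decide) (by decide) (by decide)]; exact z1'' .clk (by decide)) g4
  -- the output phase
  have p6 := (H207.run_unpad_dBits (d := d) S5.m enc hs N l hrl hsl
    (List.replicate (2 ^ l) u) (List.replicate r u) (List.replicate s u) (by simp) (by simp)
    (by simp)).map (M := M) (L := Lens.idL M) (hj.comp jUF_inj) (S := S5) (by
      unfold Store.pull
      congr 1
      funext f
      cases f
      · simp only [Function.comp, jUF, H207.ust, H207.atp_zero]; exact q5.dat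
      · simp only [Function.comp, jUF, H207.ust]; exact q5.rest.fout
      · simp only [Function.comp, jUF, H207.ust, H207.atp_zero]; exact q5.rest.w
      · simp only [Function.comp, jUF, H207.ust, H207.atp_zero]; exact q5.rest.n1
      · simp only [Function.comp, jUF, H207.ust, H207.atp_zero]; exact q5.rest.n2)
  refine ⟨t, _, ht, (p1.seq (p2.seq (p3.seq (p4.seq (p5.seq p6))))).mono ?_, ?_⟩
  · have e1 : (cn + 140) * 4 ^ l = cn * 4 ^ l + 140 * 4 ^ l := by ring
    rw [e1]
    omega
  · have := Store.put_z_apply (hj.comp jUF_inj) (L := Lens.idL M) S5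
      ⟨S5.m, H207.ust ((H525.dBits l 0 (extM N)).map fun b => enc (bitL b))
        (List.replicate (2 ^ l) u) (List.replicate r u) (List.replicate s u) (s * 2 ^ l) 0 0 0
        ((matWord fun j i => N i j).map enc)⟩ .out
    simp only [Function.comp, jUF] at this
    rw [this]
    simp [H207.ust, Zip.full]

end Vale.Agent.P338.R2.H784
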