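import Vale.Agent.P338.R2.H784.Lib

/-!
P338: Hoare triples with costs.
-/

namespace Vale.Agent.P338.R2.H784

open Vale.Agent.P338.R2.H898
open Function (update)

set_option linter.unusedSectionVars false

variable {M F α : Type} [DecidableEq F] {d : α}

/-- From the store `s` the program `p` terminates at a cost of at most `t` in a store
satisfying `Q`. -/
def Tri (d : α) (p : Prog M F α) (s : Store M F α) (t : ℕ) (Q : Store M F α → Prop) : Prop :=
  ∃ s', Prog.Run d p s t s' ∧ Q s'

theorem Tri.of_run {p : Prog M F α} {s s' : Store M F α} {t : ℕ} {Q : Store M F α → Prop}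
    (h : Prog.Run d p s t s') (hQ : Q s') : Tri d p s t Q := ⟨s', h, hQ⟩

theorem Tri.mono {p : Prog M F α} {s : Store M F α} {t t' : ℕ} {Q R : Store M F α → Prop}
    (h : Tri d p s t Q) (ht : t ≤ t') (hQ : ∀ s', Q s' → R s') : Tri d p s t' R := by
  obtain ⟨s', h1, h2⟩ := h
  exact ⟨s', h1.mono ht, hQ s' h2⟩

theorem Tri.cost {p : Prog M F α} {s : Store M F α} {t t' : ℕ} {Q : Store M F α → Prop}
    (h : Tri d p s t Q) (ht : t ≤ t') : Tri d p s t' Q := h.mono ht fun _ h => h

theorem Tri.post {p : Prog M F α} {s : Store M F α} {t : ℕ} {Q R : Store M F α → Prop}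
    (h : Tri d p s t Q) (hQ : ∀ s', Q s' → R s') : Tri d p s t R := h.mono le_rfl hQ

theorem Tri.seq {p q : Prog M F α} {s : Store M F α} {t t' : ℕ} {Q R : Store M F α → Prop}
    (h : Tri d p s t Q) (h' : ∀ s', Q s' → Tri d q s' t' R) : Tri d (.seq p q) s (t + t') R := by
  obtain ⟨s1, h1, h2⟩ := h
  obtain ⟨s2, h3, h4⟩ := h' s1 h2
  exact ⟨s2, h1.seq h3, h4⟩

theorem Tri.runSeq {p q : Prog M F α} {s s1 : Store M F α} {t t' : ℕ} {R : Store M F α → Prop}
    (h : Prog.Run d p s t s1) (h' : Tri d q s1 t' R) : Tri d (.seq p q) s (t + t') R := by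
  obtain ⟨s2, h3, h4⟩ := h'
  exact ⟨s2, h.seq h3, h4⟩

theorem Tri.ite {c : M → (F → Option α) → Bool} {p q : Prog M F α} {s : Store M F α} {t : ℕ}
    {Q : Store M F α → Prop} (h1 : c s.m s.reads = true → Tri d p s t Q)
    (h2 : c s.m s.reads = false → Tri d q s t Q) : Tri d (.ite c p q) s (1 + t) Q := by
  cases hc : c s.m s.reads with
  | true =>
    obtain ⟨s', h3, h4⟩ := h1 hc
    exact ⟨s', h3.iteT hc, h4⟩
  | false =>
    obtain ⟨s', h3, h4⟩ := h2 hc
    exact ⟨s', h3.iteF hc, h4⟩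

theorem Tri.iteT {c : M → (F → Option α) → Bool} {p q : Prog M F α} {s : Store M F α} {t : ℕ}
    {Q : Store M F α → Prop} (hc : c s.m s.reads = true) (h1 : Tri d p s t Q) :
    Tri d (.ite c p q) s (1 + t) Q := by
  obtain ⟨s', h3, h4⟩ := h1
  exact ⟨s', h3.iteT hc, h4⟩

theorem Tri.iteF {c : M → (F → Option α) → Bool} {p q : Prog M F α} {s : Store M F α} {t : ℕ}
    {Q : Store M F α → Prop} (hc : c s.m s.reads = false) (h1 : Tri d q s t Q) :
    Tri d (.ite c p q) s (1 + t) Q := by
  obtain ⟨s', h3, h4⟩ := h1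
  exact ⟨s', h3.iteF hc, h4⟩

/-- Loops with an invariant and individual costs. -/
theorem Tri.loop' {c : M → (F → Option α) → Bool} {p : Prog M F α} (n : ℕ)
    (I : ℕ → Store M F α → Prop) (t : ℕ → ℕ)
    (hc : ∀ i < n, ∀ s, I i s → c s.m s.reads = true)
    (hn : ∀ s, I n s → c s.m s.reads = false)
    (h : ∀ i < n, ∀ s, I i s → Tri d p s (t i) (I (i + 1))) {s : Store M F α} (h0 : I 0 s) :
    Tri d (.loop c p) s ((∑ i ∈ Finset.range n, (t i + 1)) + 1) (I n) := by
  induction n generalizing I t s with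
  | zero => exact ⟨s, (Prog.Run.loopF (hn s h0)).mono (by simp), h0⟩
  | succ n ih =>
    obtain ⟨s1, h1, h2⟩ := h 0 (by omega) s h0
    obtain ⟨s2, h3, h4⟩ := ih (fun i => I (i + 1)) (fun i => t (i + 1))
      (fun i hi => hc (i + 1) (by omega)) hn (fun i hi => h (i + 1) (by omega)) h2
    refine ⟨s2, (Prog.Run.loopT (hc 0 (by omega) s h0) h1 h3).mono ?_, h4⟩
    rw [Finset.sum_range_succ']
    omega

/-- Loops with an invariant and a constant cost. -/
theorem Tri.loop {c : M → (F → Option α) → Bool} {p : Prog M F α} (n : ℕ)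
    (I : ℕ → Store M F α → Prop) (t : ℕ)
    (hc : ∀ i < n, ∀ s, I i s → c s.m s.reads = true)
    (hn : ∀ s, I n s → c s.m s.reads = false)
    (h : ∀ i < n, ∀ s, I i s → Tri d p s t (I (i + 1))) {s : Store M F α} (h0 : I 0 s) :
    Tri d (.loop c p) s (n * (t + 1) + 1) (I n) := by
  have := Tri.loop' n I (fun _ => t) hc hn h h0
  simpa using this

/-- All files outside `S` are the same. -/
def Frm (S : List F) (z z' : F → Zip α) : Prop := ∀ f, f ∉ S → z' f = z f

theorem Frm.refl (S : List F) (z : F → Zip α) : Frm S z z := fun _ _ => rfl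

theorem Frm.trans {S : List F} {z z' z'' : F → Zip α} (h : Frm S z z') (h' : Frm S z' z'') :
    Frm S z z'' := fun f hf => (h' f hf).trans (h f hf)

theorem Frm.mono {S S' : List F} {z z' : F → Zip α} (h : Frm S z z') (hS : S ⊆ S') :
    Frm S' z z' := fun f hf => h f fun hf' => hf (hS hf')

theorem Frm.update {S : List F} {z z' : F → Zip α} {f : F} {v : Zip α} (h : Frm S z z')
    (hf : f ∈ S) : Frm S z (update z' f v) := by
  intro g hg
  have : g ≠ f := fun h => hg (h ▸ hf)
  rw [Function.update_of_ne this]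
  exact h g hg

/-- Repetition. -/
def rep : ℕ → Prog M F α → Prog M F α
  | 0, _ => nop
  | k + 1, p => .seq p (rep k p)

theorem Tri.rep (k : ℕ) (p : Prog M F α) (I : ℕ → Store M F α → Prop) (t : ℕ)
    (h : ∀ i < k, ∀ s, I i s → Tri d p s t (I (i + 1))) {s : Store M F α} (h0 : I 0 s) :
    Tri d (rep k p) s (k * t + 1) (I k) := by
  induction k generalizing I s with
  | zero => exact ⟨s, (run_nop s.m s.z).mono (by simp), h0⟩
  | succ k ih =>
    have h1 := h 0 (by omega) s h0
    refine (Tri.seq h1 fun s' hs' => ih (fun i => I (i + 1))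
      (fun i hi => h (i + 1) (by omega)) hs').cost ?_
    rw [Nat.add_mul]
    omega

end Vale.Agent.P338.R2.H784
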