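import Vale.Agent.P338.R2.H784.Tri

/-!
P338: unary rulers.
-/

namespace Vale.Agent.P338.R2.H784

open Vale.Agent.P338.R2.H898
open Function (update)

set_option linter.unusedSectionVars false

variable {M F α : Type} [DecidableEq F] {d : α}

/-- A unary ruler: `i` symbols to the left of the head, `j` symbols from the head on. -/
def Len (u : α) (i j : ℕ) (z : Zip α) : Prop := z = ⟨List.replicate i u, List.replicate j u⟩

variable {u : α}

theorem Len.eq_nil {z : Zip α} (h : Len u 0 0 z) : z = ⟨[], []⟩ := h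

theorem Len.nil : Len u 0 0 (⟨[], []⟩ : Zip α) := rfl

theorem Len.peek_isSome {i j : ℕ} {z : Zip α} (h : Len u i j z) :
    z.peek.isSome = decide (0 < j) := by
  subst h
  cases j <;> simp [Zip.peek, List.replicate_succ]

theorem Len.right {i j : ℕ} {z : Zip α} (h : Len u i (j + 1) z) :
    Len u (i + 1) j (Op.app d .right z) := by
  subst h
  simp [Op.app, Len, List.replicate_succ]

theorem Len.full {i j : ℕ} {z : Zip α} (h : Len u i j z) : z.full = List.replicate (i + j) u := by
  subst h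
  simp [Zip.full, List.replicate_append_replicate]

theorem Len.rewound {i j : ℕ} {z : Zip α} (h : Len u i j z) : Len u 0 (i + j) ⟨[], z.full⟩ := by
  rw [h.full]
  rfl

/-- Post-condition helper: memory unchanged and frame. -/
def Keep (S : List F) (s s' : Store M F α) : Prop := s'.m = s.m ∧ Frm S s.z s'.z

theorem Keep.refl (S : List F) (s : Store M F α) : Keep S s s := ⟨rfl, Frm.refl S s.z⟩

theorem Keep.trans {S : List F} {s s' s'' : Store M F α} (h : Keep S s s') (h' : Keep S s' s'') :
    Keep S s s'' := ⟨h'.1.trans h.1, h.2.trans h'.2⟩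

theorem Keep.mono {S S' : List F} {s s' : Store M F α} (h : Keep S s s') (hS : S ⊆ S') :
    Keep S' s s' := ⟨h.1, h.2.mono hS⟩

theorem Keep.z {S : List F} {s s' : Store M F α} (h : Keep S s s') {f : F} (hf : f ∉ S) :
    s'.z f = s.z f := h.2 f hf

theorem Keep.len {S : List F} {s s' : Store M F α} (h : Keep S s s') {f : F} (hf : f ∉ S)
    {i j : ℕ} (hl : Len u i j (s.z f)) : Len u i j (s'.z f) := by
  rw [h.z hf]
  exact hl

theorem tri_op (f : F) (o : Op α) (s : Store M F α) :
    Tri d (op f o) s 1 (fun s' => s'.z f = o.app d (s.z f) ∧ Keep [f] s s') :=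
  ⟨_, run_op f o s.m s.z, by simp, rfl, (Frm.refl _ _).update (by simp)⟩

theorem tri_right {f : F} {s : Store M F α} {i j : ℕ} (h : Len u i (j + 1) (s.z f)) :
    Tri d (op f .right) s 1 (fun s' => Len u (i + 1) j (s'.z f) ∧ Keep [f] s s') :=
  (tri_op f .right s).post fun _ ⟨h1, h2⟩ => ⟨h1 ▸ h.right, h2⟩

theorem tri_put {f : F} {s : Store M F α} {i : ℕ} (h : Len u i 0 (s.z f)) :
    Tri d (put f u) s 2 (fun s' => Len u (i + 1) 0 (s'.z f) ∧ Keep [f] s s') := by
  refine ⟨_, run_put (m := s.m) h, ?_, rfl, (Frm.refl _ _).update (by simp)⟩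
  simp only [Function.update_self]
  simp [Len, List.replicate_succ]

theorem tri_rew {f : F} {s : Store M F α} {i j : ℕ} (h : Len u i j (s.z f)) :
    Tri d (op f .rew) s 1 (fun s' => Len u 0 (i + j) (s'.z f) ∧ Keep [f] s s') := by
  refine ⟨_, run_rew f s.m s.z, ?_, rfl, (Frm.refl _ _).update (by simp)⟩
  simp only [Function.update_self]
  exact h.rewound

theorem tri_clr (f : F) (s : Store M F α) :
    Tri d (clr f) s 2 (fun s' => s'.z f = ⟨[], []⟩ ∧ Keep [f] s s') := by
  refine ⟨_, run_clr f s.m s.z, ?_, rfl, (Frm.refl _ _).update (by simp)⟩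
  simp only [Function.update_self]

/-- `while a is not at its end: move right on a, append a mark to b`. -/
def mvU (a b : F) (u : α) : Prog M F α :=
  .loop (fun _ r => (r a).isSome) (.seq (op a .right) (put b u))

theorem tri_mvU {a b : F} (hab : a ≠ b) {s : Store M F α} {i j k : ℕ}
    (ha : Len u i j (s.z a)) (hb : Len u k 0 (s.z b)) :
    Tri d (mvU a b u) s (4 * j + 1) (fun s' => Len u (i + j) 0 (s'.z a) ∧
      Len u (k + j) 0 (s'.z b) ∧ Keep [a, b] s s') := by
  have := Tri.loop (d := d) (c := fun _ r => (r a).isSome) (p := .seq (op a .right) (put b u)) j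
    (fun n s' => Len u (i + n) (j - n) (s'.z a) ∧ Len u (k + n) 0 (s'.z b) ∧ Keep [a, b] s s') 3
    ?_ ?_ ?_ ⟨ha, hb, Keep.refl _ _⟩
  · refine this.mono (by omega) ?_
    rintro s' ⟨h1, h2, h3⟩
    rw [Nat.sub_self] at h1
    exact ⟨h1, h2, h3⟩
  · rintro n hn s' ⟨h1, _⟩
    rw [Store.reads, h1.peek_isSome]
    simpa using hn
  · rintro s' ⟨h1, _⟩
    rw [Store.reads, h1.peek_isSome]
    simp
  · rintro n hn s1 ⟨h1, h2, h3⟩
    obtain ⟨j', hj'⟩ : ∃ j', j - n = j' + 1 := ⟨j - n - 1, by omega⟩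
    rw [hj'] at h1
    refine Tri.seq (t' := 2) (tri_right h1) ?_
    rintro s2 ⟨h4, h5⟩
    have hb2 : Len u (k + n) 0 (s2.z b) := h5.len (by simp [hab.symm]) h2
    refine (tri_put hb2).post ?_
    rintro s3 ⟨h6, h7⟩
    refine ⟨?_, by rw [← Nat.add_assoc]; exact h6, ?_⟩
    · have : Len u (i + n + 1) j' (s3.z a) := h7.len (by simp [hab]) h4
      have e : j - (n + 1) = j' := by omega
      rw [e, ← Nat.add_assoc]
      exact this
    · exact h3.trans ((h5.mono (by simp)).trans (h7.mono (by simp)))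

/-- `for` loop over a ruler: the body does not change the ruler. -/
def forU (f : F) (p : Prog M F α) : Prog M F α :=
  .seq (.loop (fun _ r => (r f).isSome) (.seq p (op f .right))) (op f .rew)

theorem tri_forU' {f : F} {p : Prog M F α} {n : ℕ} (I : ℕ → Store M F α → Prop) (t : ℕ → ℕ)
    (hI : ∀ i s v, I i s → I i ⟨s.m, update s.z f v⟩)
    (h : ∀ i < n, ∀ s, Len u i (n - i) (s.z f) → I i s →
      Tri d p s (t i) (fun s' => s'.z f = s.z f ∧ I (i + 1) s'))
    {s : Store M F α} (hf : Len u 0 n (s.z f)) (h0 : I 0 s) :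
    Tri d (forU f p) s ((∑ i ∈ Finset.range n, (t i + 2)) + 2)
      (fun s' => Len u 0 n (s'.z f) ∧ I n s') := by
  have := Tri.loop' (d := d) (c := fun _ r => (r f).isSome) (p := .seq p (op f .right)) n
    (fun i s' => Len u i (n - i) (s'.z f) ∧ I i s')
    (fun i => t i + 1) ?_ ?_ ?_ ⟨by simpa using hf, h0⟩
  · refine (Tri.seq this (t' := 1) ?_).cost (by simp)
    rintro s1 ⟨h1, h3⟩
    refine (tri_rew h1).mono le_rfl ?_
    rintro s2 ⟨h4, h6⟩
    refine ⟨by simpa using h4, ?_⟩
    have h7 := hI n s1 (s2.z f) h3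
    have h8 : s2 = ⟨s1.m, update s1.z f (s2.z f)⟩ := by
      rcases s2 with ⟨m2, z2⟩
      obtain ⟨h9, h10⟩ := h6
      simp only at h9 h10
      subst h9
      simp only [Store.mk.injEq, true_and]
      funext g
      by_cases hg : g = f
      · subst hg; simp
      · rw [Function.update_of_ne hg]
        exact h10 g (by simpa using hg)
    rw [h8]
    exact h7
  · rintro i hi s' ⟨h1, _⟩
    rw [Store.reads, h1.peek_isSome]
    simpa using hi
  · rintro s' ⟨h1, _⟩
    rw [Store.reads, h1.peek_isSome]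
    simp
  · rintro i hi s1 ⟨h1, h3⟩
    refine Tri.seq (h i hi s1 h1 h3) ?_
    rintro s2 ⟨h4, h5⟩
    obtain ⟨j', hj'⟩ : ∃ j', n - i = j' + 1 := ⟨n - i - 1, by omega⟩
    rw [← h4, hj'] at h1
    refine (tri_op f .right s2).post ?_
    rintro s3 ⟨h6, h7⟩
    refine ⟨?_, ?_⟩
    · rw [h6]
      have e : n - (i + 1) = j' := by omega
      rw [e]
      exact h1.right
    · have h8 := hI (i + 1) s2 (s3.z f) h5
      have h9 : s3 = ⟨s2.m, update s2.z f (s3.z f)⟩ := by
        rcases s3 with ⟨m3, z3⟩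
        obtain ⟨h9, h10⟩ := h7
        simp only at h9 h10
        subst h9
        simp only [Store.mk.injEq, true_and]
        funext g
        by_cases hg : g = f
        · subst hg; simp
        · rw [Function.update_of_ne hg]
          exact h10 g (by simpa using hg)
      rw [h9]
      exact h8

theorem tri_forU {f : F} {p : Prog M F α} {n : ℕ} (I : ℕ → Store M F α → Prop) (t : ℕ)
    (hI : ∀ i s v, I i s → I i ⟨s.m, update s.z f v⟩)
    (h : ∀ i < n, ∀ s, Len u i (n - i) (s.z f) → I i s →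
      Tri d p s t (fun s' => s'.z f = s.z f ∧ I (i + 1) s'))
    {s : Store M F α} (hf : Len u 0 n (s.z f)) (h0 : I 0 s) :
    Tri d (forU f p) s (n * (t + 2) + 2)
      (fun s' => Len u 0 n (s'.z f) ∧ I n s') := by
  simpa using tri_forU' I (fun _ => t) hI h hf h0

end Vale.Agent.P338.R2.H784
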